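import Vale.Agent.N210.Lift
import Vale.Agent.P216.H494.CovDist
import Vale.Agent.P210.R2.H53.Defs
import Vale.Agent.P300.H903.UC
import Vale.Agent.P290K89.Herm

/-!
# N210 / Cover : scaling, Riemannian coverings and the consequences of the width bound
-/

open Set Topology Metric Filter Bundle Manifold IsManifold
open scoped ContDiff ENNReal Uniformity

set_option maxSynthPendingDepth 3

namespace Vale.Agent.N210

open Vale.Agent.P210.R2.H53 Vale.Agent.P216.H494

/-- A copy of `M` with all lengths multiplied by `c`. -/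
def Scl {c : ℝ} (_ : 0 < c) (M : Type) : Type := M

section scl

variable {c : ℝ} (hc : 0 < c) {E : Type} [NormedAddCommGroup E] [NormedSpace ℝ E]
  (M : Type) [MetricSpace M]

noncomputable instance instMetricScl : MetricSpace (Scl hc M) where
  dist x y := c * dist (show M from x) (show M from y)
  dist_self x := by rw [dist_self, mul_zero]
  dist_comm x y := by rw [dist_comm]
  dist_triangle x y z := by
    rw [← mul_add]
    exact mul_le_mul_of_nonneg_left (dist_triangle _ _ _) hc.le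
  eq_of_dist_eq_zero h := eq_of_dist_eq_zero (γ := M) ((mul_eq_zero.1 h).resolve_left hc.ne')
  toUniformSpace := (inferInstance : UniformSpace M)
  uniformity_dist := (Metric.uniformity_basis_dist.to_hasBasis (p' := fun ε : ℝ => 0 < ε)
    (s' := fun ε => {p : M × M | c * dist p.1 p.2 < ε})
    (fun ε hε => ⟨c * ε, mul_pos hc hε, fun _ hp => lt_of_mul_lt_mul_left hp hc.le⟩)
    (fun ε hε => ⟨ε / c, div_pos hε hc, fun _ hp => (lt_div_iff₀' hc).1 hp⟩)).eq_biInf

theorem Scl.dist_eq (x y : Scl hc M) : dist x y = c * dist (show M from x) (show M from y) := rfl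

instance [h : CompleteSpace M] : CompleteSpace (Scl hc M) := h

variable [ChartedSpace E M]

instance instChartedScl : ChartedSpace E (Scl hc M) := ‹ChartedSpace E M›

instance [h : IsManifold 𝓘(ℝ, E) ∞ M] : IsManifold 𝓘(ℝ, E) ∞ (Scl hc M) := h

include hc in
theorem bdd_scale {B : E →L[ℝ] E →L[ℝ] ℝ} (h : Bornology.IsVonNBounded ℝ {v : E | B v v < 1}) :
    Bornology.IsVonNBounded ℝ {v : E | (c ^ 2 • B) v v < 1} := by
  refine (h.image ((c⁻¹ : ℝ) • ContinuousLinearMap.id ℝ E)).subset fun v hv => ?_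
  refine ⟨c • v, ?_, inv_smul_smul₀ hc.ne' v⟩
  have h1 : c ^ 2 * B v v < 1 := hv
  change B (c • v) (c • v) < 1
  rwa [map_smul, map_smul, smul_apply, smul_smul, ← sq]

variable [h : RiemannianBundle (fun x : M => TangentSpace 𝓘(ℝ, E) x)]

/-- the metric `c ^ 2 g` -/
@[reducible] noncomputable def rb : RiemannianBundle (fun x : M => TangentSpace 𝓘(ℝ, E) x) where
  g :=
    { inner := fun x => c ^ 2 • h.g.inner x
      symm := fun x v w => congrArg (c ^ 2 * ·) (h.g.symm x v w)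
      pos := fun x v hv => mul_pos (pow_pos hc 2) (h.g.pos x v hv)
      continuousAt := fun x => (h.g.continuousAt x).const_mul _
      isVonNBounded := fun x => bdd_scale hc (h.g.isVonNBounded x) }

noncomputable instance instRiemScl :
    RiemannianBundle (fun x : Scl hc M => TangentSpace 𝓘(ℝ, E) x) := rb (E := E) hc M

theorem Scl.inner_eq (x : Scl hc M) (v w : TangentSpace 𝓘(ℝ, E) x) :
    inner ℝ v w = c ^ 2 * inner ℝ (show TangentSpace 𝓘(ℝ, E) (show M from x) from v)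
      (show TangentSpace 𝓘(ℝ, E) (show M from x) from w) := rfl

theorem Scl.enorm_eq (x : Scl hc M) (v : TangentSpace 𝓘(ℝ, E) x) :
    ‖v‖ₑ = ENNReal.ofReal c * ‖(show TangentSpace 𝓘(ℝ, E) (show M from x) from v)‖ₑ := by
  rw [← ofReal_norm, ← ofReal_norm, norm_eq_sqrt_real_inner, norm_eq_sqrt_real_inner,
    Scl.inner_eq, Real.sqrt_mul (sq_nonneg c), Real.sqrt_sq hc.le, ENNReal.ofReal_mul hc.le]

theorem Scl.edist_eq (x y : Scl hc M) : riemannianEDist 𝓘(ℝ, E) x y =
    ENNReal.ofReal c * riemannianEDist 𝓘(ℝ, E) (show M from x) (show M from y) := by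
  have h0 : ENNReal.ofReal c ≠ 0 := (ENNReal.ofReal_pos.2 hc).ne'
  rw [riemannianEDist_def, riemannianEDist_def, ENNReal.mul_iInf_of_ne h0 ENNReal.ofReal_ne_top]
  refine iInf_congr fun γ => ?_
  rw [ENNReal.mul_iInf_of_ne h0 ENNReal.ofReal_ne_top]
  refine iInf_congr fun _ => ?_
  rw [← MeasureTheory.lintegral_const_mul' _ _ ENNReal.ofReal_ne_top]
  exact MeasureTheory.lintegral_congr fun t => Scl.enorm_eq hc M _ _

instance [IsRiemannianManifold 𝓘(ℝ, E) M] : IsRiemannianManifold 𝓘(ℝ, E) (Scl hc M) :=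
  ⟨fun x y => by
    rw [Scl.edist_eq, ← IsRiemannianManifold.out, edist_dist, edist_dist, Scl.dist_eq,
      ENNReal.ofReal_mul hc.le]⟩

variable [IsManifold 𝓘(ℝ, E) ∞ M]
  [h' : IsContMDiffRiemannianBundle 𝓘(ℝ, E) ∞ E (fun x : M => TangentSpace 𝓘(ℝ, E) x)]

theorem plain_smooth : ContMDiff 𝓘(ℝ, E) (𝓘(ℝ, E).prod 𝓘(ℝ, E →L[ℝ] E →L[ℝ] ℝ)) ∞
      (fun b : M => TotalSpace.mk' (E →L[ℝ] E →L[ℝ] ℝ)
        (E := fun b : M => TangentSpace 𝓘(ℝ, E) b →L[ℝ] TangentSpace 𝓘(ℝ, E) b →L[ℝ] ℝ) b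
        (h.g.inner b)) := by
  obtain ⟨g, hg, hg'⟩ := h'.exists_contMDiff
  have h1 : ∀ b : M, h.g.inner b = g b := by
    intro b
    ext v w
    exact hg' b v w
  simp only [h1]
  exact hg

theorem plain_smul (c : ℝ) : ContMDiff 𝓘(ℝ, E) (𝓘(ℝ, E).prod 𝓘(ℝ, E →L[ℝ] E →L[ℝ] ℝ)) ∞
      (fun b : M => TotalSpace.mk' (E →L[ℝ] E →L[ℝ] ℝ)
        (E := fun b : M => TangentSpace 𝓘(ℝ, E) b →L[ℝ] TangentSpace 𝓘(ℝ, E) b →L[ℝ] ℝ) b
        (c • h.g.inner b)) :=
  fun x => (contMDiffAt_const (c := c)).smul_section (plain_smooth M x)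

theorem rb_smooth : letI := rb (E := E) hc M
    IsContMDiffRiemannianBundle 𝓘(ℝ, E) ∞ E (fun x : M => TangentSpace 𝓘(ℝ, E) x) := by
  have h1 := plain_smul (E := E) M (c ^ 2)
  let g0 := fun x : M => c ^ 2 • h.g.inner x
  let := rb (E := E) hc M
  exact ⟨g0, h1, fun x v w => rfl⟩

instance : IsContMDiffRiemannianBundle 𝓘(ℝ, E) ∞ E
    (fun x : Scl hc M => TangentSpace 𝓘(ℝ, E) x) := rb_smooth (E := E) hc M

end scl

section germ

variable {E : Type} [NormedAddCommGroup E] [NormedSpace ℝ E]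
  {M : Type} [MetricSpace M] [ChartedSpace E M]
  [RiemannianBundle (fun x : M => TangentSpace 𝓘(ℝ, E) x)]
  {N : Type} [MetricSpace N] [ChartedSpace E N]
  [RiemannianBundle (fun x : N => TangentSpace 𝓘(ℝ, E) x)]
  {e : OpenPartialHomeomorph M E} {e' : OpenPartialHomeomorph N E} {z : E}

theorem fd_mul {f f' : E → ℝ} {a : ℝ} (h : ∀ᶠ y in 𝓝 z, f' y = a * f y) (u : E) :
    fderiv ℝ f' z u = a * fderiv ℝ f z u := by
  rw [Filter.EventuallyEq.fderiv_eq (f := a • f) h, fderiv_const_smul_field]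
  rfl

theorem cm_symm (v w : E) : chartMetric e z v w = chartMetric e z w v := real_inner_comm _ _

theorem cm_smul (c : ℝ) (v w : E) : chartMetric e z (c • v) w = c * chartMetric e z v w :=
  (congrArg (inner ℝ · (mfderiv 𝓘(ℝ, E) 𝓘(ℝ, E) e.symm z w))
    (map_smul (mfderiv 𝓘(ℝ, E) 𝓘(ℝ, E) e.symm z) c v)).trans (real_inner_smul_left _ _ _)

theorem cm_smul' (c : ℝ) (v w : E) :
    chartMetric e z (c • v) (c • w) = c ^ 2 * chartMetric e z v w := by
  rw [cm_smul, cm_symm, cm_smul, cm_symm]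
  ring

theorem chris_smul {Γ : E → E → E} (h : IsChristoffel e z Γ) (c : ℝ) (u v w : E) :
    chartMetric e z (Γ (c • u) (c • v)) w = c ^ 2 * chartMetric e z (Γ u v) w := by
  have h1 := h (c • u) (c • v) w
  rw [fd_mul (.of_forall fun y => cm_smul c v w), fd_mul (.of_forall fun y => cm_smul c u w),
    fd_mul (.of_forall fun y => cm_smul' c u v), map_smul, map_smul, smul_eq_mul,
    smul_eq_mul] at h1
  linear_combination (1 / 2) * h1 - c ^ 2 / 2 * h u v w

theorem sect_smul {Γ : E → E → E} (h : IsChristoffel e z Γ) (c : ℝ) (u v : E) :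
    sectNum e z Γ (c • u) (c • v) = c ^ 4 * sectNum e z Γ u v := by
  have h1 : ∀ a b a' b' : E, fderiv ℝ (fun y => fderiv ℝ
      (fun x => chartMetric e x (c • a) (c • b)) y (c • a')) z (c • b') =
      c ^ 4 * fderiv ℝ (fun y => fderiv ℝ (fun x => chartMetric e x a b) y a') z b' := by
    intro a b a' b'
    rw [fd_mul (a := c ^ 3) (f := fun y => fderiv ℝ (fun x => chartMetric e x a b) y a')
      (.of_forall fun y => by
        rw [fd_mul (.of_forall fun y => cm_smul' c a b), map_smul, smul_eq_mul]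
        ring), map_smul, smul_eq_mul]
    ring
  have h2 : ∀ a b a' b' : E, chartMetric e z (Γ (c • a) (c • b)) (Γ (c • a') (c • b')) =
      c ^ 4 * chartMetric e z (Γ a b) (Γ a' b') := by
    intro a b a' b'
    rw [chris_smul h, cm_symm, chris_smul h, cm_symm]
    ring
  simp only [sectNum, h1, h2]
  ring

variable {a : ℝ} (h : ∀ᶠ y in 𝓝 z, ∀ v w, chartMetric e' y v w = a * chartMetric e y v w)
include h

theorem d1 (u v w : E) : fderiv ℝ (fun y => chartMetric e' y v w) z u =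
    a * fderiv ℝ (fun y => chartMetric e y v w) z u := fd_mul (h.mono fun _ hy => hy v w) u

theorem d2 (u c v w : E) :
    fderiv ℝ (fun y => fderiv ℝ (fun x => chartMetric e' x v w) y c) z u =
      a * fderiv ℝ (fun y => fderiv ℝ (fun x => chartMetric e x v w) y c) z u :=
  fd_mul (h.eventually_nhds.mono fun _ hy => d1 hy c v w) u

theorem chris_of {Γ : E → E → E} (hΓ : IsChristoffel e z Γ) : IsChristoffel e' z Γ := by
  intro u v w
  rw [h.self_of_nhds, d1 h, d1 h, d1 h]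
  linear_combination a * hΓ u v w

theorem sect_eq (Γ : E → E → E) (u v : E) : sectNum e' z Γ u v = a * sectNum e z Γ u v := by
  simp only [sectNum, d2 h, h.self_of_nhds]
  ring

end germ

section scal

variable {E : Type} [NormedAddCommGroup E] [NormedSpace ℝ E]
  {M : Type} [MetricSpace M] [ChartedSpace E M] [IsManifold 𝓘(ℝ, E) ∞ M]
  [RiemannianBundle (fun x : M => TangentSpace 𝓘(ℝ, E) x)]

theorem scal_scl {c : ℝ} (hc : 0 < c) (h : ScalGE E M (c ^ 2)) : ScalGE E (Scl hc M) 1 := by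
  intro e' he z hz
  let e : OpenPartialHomeomorph M E := e'
  obtain ⟨Γ, hΓ, hb⟩ := h e he z hz
  have hg : ∀ᶠ y in 𝓝 z, ∀ v w, chartMetric e' y v w = c ^ 2 * chartMetric e y v w :=
    .of_forall fun _ _ _ => rfl
  refine ⟨Γ, chris_of hg hΓ, fun b hb' => ?_⟩
  have h1 := hb (b.isUnitSMul fun _ => hc.ne'.isUnit) fun i j => by
    rw [Module.Basis.isUnitSMul_apply, Module.Basis.isUnitSMul_apply, cm_smul',
      ← hg.self_of_nhds, hb']
  simp only [Module.Basis.isUnitSMul_apply, sect_smul hΓ, ← Finset.mul_sum] at h1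
  simp only [sect_eq hg, ← Finset.mul_sum]
  have h2 := pow_pos hc 2
  nlinarith

end scal

section complete

theorem isPreconnected_ball_riem (E : Type) [NormedAddCommGroup E] [NormedSpace ℝ E] {N : Type}
    [MetricSpace N] [ChartedSpace E N] [RiemannianBundle fun p : N => TangentSpace 𝓘(ℝ, E) p]
    [IsRiemannianManifold 𝓘(ℝ, E) N] (y : N) (r : ℝ) : IsPreconnected (ball y r) := by
  refine isPreconnected_of_forall y fun z hz => ?_
  have h1 : riemannianEDist 𝓘(ℝ, E) y z < ENNReal.ofReal r := by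
    rw [← IsRiemannianManifold.out, edist_lt_ofReal, dist_comm]
    exact hz
  obtain ⟨γ, h0, h1, hγ, hl⟩ := exists_lt_of_riemannianEDist_lt h1
  refine ⟨γ '' Icc 0 1, ?_, ⟨0, left_mem_Icc.mpr zero_le_one, h0⟩,
    ⟨1, right_mem_Icc.mpr zero_le_one, h1⟩, isPreconnected_Icc.image γ hγ.continuousOn⟩
  rintro _ ⟨t, ht, rfl⟩
  rw [mem_ball, dist_comm, ← edist_lt_ofReal, IsRiemannianManifold.out (I := 𝓘(ℝ, E))]
  refine lt_of_le_of_lt ?_ hl
  exact (riemannianEDist_le_pathELength (hγ.mono (Icc_subset_Icc_right ht.2)) h0 rfl ht.1).trans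
    (pathELength_mono le_rfl ht.2)

theorem connected_riem (E : Type) [NormedAddCommGroup E] [NormedSpace ℝ E] (N : Type)
    [MetricSpace N] [ChartedSpace E N] [RiemannianBundle fun p : N => TangentSpace 𝓘(ℝ, E) p]
    [IsRiemannianManifold 𝓘(ℝ, E) N] [h : Nonempty N] : ConnectedSpace N := by
  obtain ⟨x₀⟩ := h
  exact connectedSpace_iff_univ.2 ⟨⟨x₀, trivial⟩, isPreconnected_of_forall x₀ fun y _ =>
    ⟨ball x₀ (dist y x₀ + 1), subset_univ _, mem_ball_self (by positivity),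
      mem_ball.2 (lt_add_one _), isPreconnected_ball_riem E _ _⟩⟩

theorem complete_of_cov {X Y Y' : Type} [MetricSpace X] [MetricSpace Y] [ProperSpace X]
    [TopologicalSpace Y'] {f : Y' → X} (hf : IsCoveringMap f) {ι : Y → Y'}
    (hι : IsClosedEmbedding ι) (hl : ∀ y z, dist (f (ι y)) (f (ι z)) ≤ dist y z)
    (hb : ∀ (y : Y) (r : ℝ), IsPreconnected (ball y r)) : CompleteSpace Y := by
  refine Metric.complete_of_cauchySeq_tendsto fun u hu => ?_
  have hlip : LipschitzWith 1 (f ∘ ι) := LipschitzWith.mk_one hl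
  obtain ⟨x, hx⟩ := cauchySeq_tendsto_of_complete (hlip.uniformContinuous.comp_cauchySeq hu)
  obtain ⟨hd, U, hxU, hU, -, H, hH⟩ := hf x
  obtain ⟨δ, hδ, hL⟩ := Metric.isOpen_iff.1 hU x hxU
  obtain ⟨n₁, hn₁⟩ := Metric.cauchySeq_iff.mp hu (δ / 2) (by linarith)
  obtain ⟨n₂, hn₂⟩ := Metric.tendsto_atTop.1 hx (δ / 2) (by linarith)
  set y := u (max n₁ n₂) with hy
  have hxy : dist (f (ι y)) x < δ / 2 := hn₂ _ (le_max_right _ _)
  have key : ∃ K : Set Y, IsCompact K ∧ ball y (δ / 2) ⊆ K := by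
    have hsub : ∀ z ∈ ball y (δ / 2), f (ι z) ∈ closedBall (f (ι y)) (δ / 2) := fun z hz =>
      (hl z y).trans (le_of_lt hz)
    have hcb : closedBall (f (ι y)) (δ / 2) ⊆ U := fun w hw => hL (by
      rw [mem_ball]
      linarith [dist_triangle w (f (ι y)) x, mem_closedBall.1 hw])
    have hyb : y ∈ ball y (δ / 2) := mem_ball_self (by linarith)
    let j : ball y (δ / 2) → f ⁻¹' U := fun z => ⟨ι z, hcb (hsub z z.2)⟩
    have hj : Continuous j := (hι.continuous.comp continuous_subtype_val).subtype_mk _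
    have : PreconnectedSpace (ball y (δ / 2)) := isPreconnected_iff_preconnectedSpace.mp (hb y _)
    have hc : ∀ z : ball y (δ / 2), (H (j z)).2 = (H (j ⟨y, hyb⟩)).2 := fun z =>
      (IsLocallyConstant.iff_continuous _).mpr
        (continuous_snd.comp (H.continuous.comp hj)) |>.apply_eq_of_preconnectedSpace _ _
    let i : closedBall (f (ι y)) (δ / 2) → Y' := fun w =>
      H.symm (⟨w, hcb w.2⟩, (H (j ⟨y, hyb⟩)).2)
    have hi : Continuous i := continuous_subtype_val.comp (H.symm.continuous.comp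
      ((continuous_subtype_val.subtype_mk _).prodMk continuous_const))
    have : CompactSpace (closedBall (f (ι y)) (δ / 2)) :=
      isCompact_iff_compactSpace.mp (isCompact_closedBall _ _)
    refine ⟨ι ⁻¹' range i, hι.isCompact_preimage (isCompact_range hi),
      fun z hz => ⟨⟨f (ι z), hsub z hz⟩, ?_⟩⟩
    have h1 : H (j ⟨z, hz⟩) = (⟨f (ι z), hcb (hsub z hz)⟩, (H (j ⟨y, hyb⟩)).2) :=
      Prod.ext (Subtype.ext (hH _)) (hc ⟨z, hz⟩)
    change (H.symm (⟨f (ι z), hcb (hsub z hz)⟩, (H (j ⟨y, hyb⟩)).2) : Y') = ι z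
    rw [← h1, Homeomorph.symm_apply_apply]
  obtain ⟨K, hK, hK'⟩ := key
  obtain ⟨a, -, ha⟩ := hK.isComplete (map u atTop) hu
    (le_principal_iff.mpr (mem_map.mpr (mem_of_superset (eventually_ge_atTop n₁)
      fun m hm => hK' (hn₁ m hm _ (le_max_left _ _)))))
  exact ⟨a, ha⟩

/-- the Riemannian distance -/
@[reducible] noncomputable def riemMetric (E : Type) [NormedAddCommGroup E] [NormedSpace ℝ E]
    [FiniteDimensional ℝ E] (N : Type) [TopologicalSpace N] [T2Space N] [ConnectedSpace N]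
    [ChartedSpace E N] [IsManifold 𝓘(ℝ, E) ∞ N]
    [RiemannianBundle fun p : N => TangentSpace 𝓘(ℝ, E) p]
    [IsContMDiffRiemannianBundle 𝓘(ℝ, E) ∞ E (fun x : N => TangentSpace 𝓘(ℝ, E) x)] :
    MetricSpace N :=
  letI := continuousRiemannian (E := E) N
  letI : ProperSpace E := FiniteDimensional.proper ℝ E
  letI : LocallyCompactSpace N := ChartedSpace.locallyCompactSpace E _
  letI : EMetricSpace N := EMetricSpace.ofRiemannianMetric 𝓘(ℝ, E) N
  EMetricSpace.toMetricSpace (fun x y => (riemannianEDist_lt_top (E := E) x y).ne)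

end complete

section cov

variable {X M : Type} [TopologicalSpace X] [MetricSpace M] {f : X → M}
  (E : Type) [NormedAddCommGroup E] [NormedSpace ℝ E] [ChartedSpace E M]
  [IsManifold 𝓘(ℝ, E) ∞ M]
  [RiemannianBundle (fun x : M => TangentSpace 𝓘(ℝ, E) x)]
  (hf : IsLocalHomeomorph f)

omit [IsManifold 𝓘(ℝ, E) ∞ M] in
theorem cov_deck {γ : Cov hf → Cov hf} (hγ : Continuous γ) (h : Cov.p hf ∘ γ = Cov.p hf)
    (x y : Cov hf) : riemannianEDist 𝓘(ℝ, E) (γ x) (γ y) ≤ riemannianEDist 𝓘(ℝ, E) x y := by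
  have h1 : ContMDiff 𝓘(ℝ, E) 𝓘(ℝ, E) ∞ γ := by
    intro x
    have h2 : Cov.p hf x ∈ (Cov.loc hf (γ x)).target := by
      have := (Cov.loc hf (γ x)).map_source (Cov.mem_loc hf _)
      rwa [Cov.loc_eq, show Cov.p hf (γ x) = Cov.p hf x from congrFun h x] at this
    refine (((Cov.contMDiffOn_symm hf (Cov.loc_eq hf (γ x))).contMDiffAt
      ((Cov.loc hf (γ x)).open_target.mem_nhds h2)).comp x
      (Cov.contMDiff_p hf x)).congr_of_eventuallyEq ?_
    filter_upwards [hγ.continuousAt.preimage_mem_nhds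
      ((Cov.loc hf (γ x)).open_source.mem_nhds (Cov.mem_loc hf _))] with z hz
    rw [Function.comp_apply, ← show Cov.p hf (γ z) = Cov.p hf z from congrFun h z,
      ← Cov.loc_eq hf (γ x), (Cov.loc hf (γ x)).left_inv hz]
  refine le_of_forall_gt fun r hr => ?_
  obtain ⟨η, h0, h0', hη, hr⟩ := exists_lt_of_riemannianEDist_lt hr
  have h2 : ContMDiffOn 𝓘(ℝ, ℝ) 𝓘(ℝ, E) 1 (γ ∘ η) (Icc 0 1) :=
    (h1.of_le (by norm_num)).comp_contMDiffOn hη
  refine (riemannianEDist_le_pathELength h2 (congrArg γ h0) (congrArg γ h0')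
    zero_le_one).trans_lt ?_
  rwa [← Cov.pathELength_comp hf zero_lt_one h2, ← Function.comp_assoc, h,
    Cov.pathELength_comp hf zero_lt_one hη]

variable [FiniteDimensional ℝ E]
  [IsContMDiffRiemannianBundle 𝓘(ℝ, E) ∞ E (fun x : M => TangentSpace 𝓘(ℝ, E) x)]
  [T2Space X] [ConnectedSpace X]

theorem cov_pack [IsRiemannianManifold 𝓘(ℝ, E) M] [ProperSpace M] {Y : Type} [TopologicalSpace Y]
    {g : Y → M} (hg : IsCoveringMap g) {ι : X → Y} (hι : IsClosedEmbedding ι) (h : f = g ∘ ι) :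
    letI := riemMetric E (Cov hf)
    IsRiemannianManifold 𝓘(ℝ, E) (Cov hf) ∧ CompleteSpace (Cov hf) ∧ ∀ γ : Cov hf → Cov hf,
      Continuous γ → Cov.p hf ∘ γ = Cov.p hf → ∀ a b, dist (γ a) (γ b) ≤ dist a b := by
  let := riemMetric E (Cov hf)
  have hR : IsRiemannianManifold 𝓘(ℝ, E) (Cov hf) := ⟨fun _ _ => rfl⟩
  refine ⟨hR, complete_of_cov (Y := Cov hf) hg hι (fun a b => ?_) (isPreconnected_ball_riem E),
    fun γ hγ h a b => ?_⟩
  · rw [← edist_le_ofReal dist_nonneg, ← edist_dist, IsRiemannianManifold.out (I := 𝓘(ℝ, E)),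
      IsRiemannianManifold.out (I := 𝓘(ℝ, E))]
    subst h
    exact Cov.riemannianEDist_p_le hf a b
  · rw [← edist_le_ofReal dist_nonneg, ← edist_dist, IsRiemannianManifold.out (I := 𝓘(ℝ, E)),
      IsRiemannianManifold.out (I := 𝓘(ℝ, E))]
    exact cov_deck E hf hγ h a b

theorem cov_scal {σ : ℝ} (h : ScalGE E M σ) :
    letI := riemMetric E (Cov hf)
    ScalGE E (Cov hf) σ := by
  let := riemMetric E (Cov hf)
  intro e' he' z hz
  set ψ := Cov.loc hf (e'.symm z) with hψ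
  have hψp : (ψ : Cov hf → M) = Cov.p hf := Cov.loc_eq hf _
  set e := ψ.symm.trans e' with he
  have hz' : z ∈ e.target := ⟨hz, Cov.mem_loc hf _⟩
  have he1 : e ∈ maximalAtlas 𝓘(ℝ, E) ∞ M := by
    refine e.mem_maximalAtlas_of_contMDiffOn ?_ ?_
    · exact (contMDiffOn_of_mem_maximalAtlas he').comp
        ((Cov.contMDiffOn_symm hf hψp).mono fun x hx => hx.1) fun x hx => hx.2
    · have h1 := (Cov.contMDiff_p (E := E) hf).comp_contMDiffOn
        ((contMDiffOn_symm_of_mem_maximalAtlas he').mono (t := e.target) fun x hx => hx.1)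
      rwa [← hψp] at h1
  have hg : ∀ᶠ y in 𝓝 z, ∀ v w, chartMetric e' y v w = 1 * chartMetric e y v w := by
    filter_upwards [e'.open_target.mem_nhds hz] with y hy v w
    have h5 : (e.symm : E → M) = Cov.p hf ∘ e'.symm := by rw [← hψp]; rfl
    have h6 : MDifferentiableAt 𝓘(ℝ, E) 𝓘(ℝ, E) e'.symm y :=
      ((contMDiffOn_symm_of_mem_maximalAtlas he').contMDiffAt
        (e'.open_target.mem_nhds hy)).mdifferentiableAt (by simp)
    have h7 := ((Cov.hasMFDerivAt hf _).comp y h6.hasMFDerivAt).mfderiv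
    rw [one_mul, chartMetric, chartMetric, h5, h7]
    rfl
  obtain ⟨Γ, hΓ, hb⟩ := h e he1 z hz'
  refine ⟨Γ, chris_of hg hΓ, fun b hb' => ?_⟩
  simp only [sect_eq hg, one_mul]
  exact hb b fun i j => by rw [← hb', hg.self_of_nhds, one_mul]

end cov

theorem exists_cover (E : Type) [NormedAddCommGroup E] [NormedSpace ℝ E] [FiniteDimensional ℝ E]
    (M : Type) [MetricSpace M] [ChartedSpace E M]
    [RiemannianBundle (fun x : M => TangentSpace 𝓘(ℝ, E) x)] [IsManifold 𝓘(ℝ, E) ∞ M]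
    [IsContMDiffRiemannianBundle 𝓘(ℝ, E) ∞ E (fun x : M => TangentSpace 𝓘(ℝ, E) x)]
    [IsRiemannianManifold 𝓘(ℝ, E) M] [ProperSpace M] [Nonempty M] {σ : ℝ} (h : ScalGE E M σ) :
    ∃ (W : Type) (_ : MetricSpace W) (_ : ChartedSpace E W)
      (_ : RiemannianBundle (fun x : W => TangentSpace 𝓘(ℝ, E) x)) (_ : IsManifold 𝓘(ℝ, E) ∞ W)
      (_ : IsContMDiffRiemannianBundle 𝓘(ℝ, E) ∞ E (fun x : W => TangentSpace 𝓘(ℝ, E) x))
      (_ : IsRiemannianManifold 𝓘(ℝ, E) W) (p : W → M),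
      CompleteSpace W ∧ ScalGE E W σ ∧ SimplyConnectedSpace W ∧ IsCoveringMap p ∧
      Function.Surjective p ∧
      ∀ γ : W → W, Continuous γ → p ∘ γ = p → ∀ a b, dist (γ a) (γ b) ≤ dist a b := by
  have := connected_riem E M
  obtain ⟨V, _, p, _, hsc, hp, hs, -⟩ := P300.H903.exists_topUC (F := E) M
  have hf := hp.isLocalHomeomorph
  let := riemMetric E (Cov hf)
  obtain ⟨h1, h2, h3⟩ := cov_pack E hf hp IsClosedEmbedding.id rfl
  exact ⟨Cov hf, this, inferInstance, inferInstance, inferInstance, inferInstance, h1, Cov.p hf,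
    h2, cov_scal E hf h, hsc, hp, hs, h3⟩

/-- the width bound in dimension `n` with constant `C` for scalar curvature at least `σ` -/
def Wd (n : ℕ) (σ C : ℝ) : Prop :=
  ∀ (E : Type) [NormedAddCommGroup E] [NormedSpace ℝ E] [FiniteDimensional ℝ E]
    (M : Type) [MetricSpace M] [ChartedSpace E M]
    [RiemannianBundle (fun x : M => TangentSpace 𝓘(ℝ, E) x)] [IsManifold 𝓘(ℝ, E) ∞ M]
    [IsContMDiffRiemannianBundle 𝓘(ℝ, E) ∞ E (fun x : M => TangentSpace 𝓘(ℝ, E) x)]
    [IsRiemannianManifold 𝓘(ℝ, E) M],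
    Module.finrank ℝ E = n → CompleteSpace M → ScalGE E M σ → UrysohnWidthLE M (n - 2) C

/-- complete Riemannian manifolds are proper -/
def Pr : Prop :=
  ∀ (E : Type) [NormedAddCommGroup E] [NormedSpace ℝ E] [FiniteDimensional ℝ E]
    (M : Type) [MetricSpace M] [ChartedSpace E M] [IsManifold 𝓘(ℝ, E) ∞ M]
    [RiemannianBundle (fun x : M => TangentSpace 𝓘(ℝ, E) x)]
    [IsContMDiffRiemannianBundle 𝓘(ℝ, E) ∞ E (fun x : M => TangentSpace 𝓘(ℝ, E) x)]
    [IsRiemannianManifold 𝓘(ℝ, E) M] [CompleteSpace M], ProperSpace M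

theorem exists_asph (hP : Pr) (F : Type) [NormedAddCommGroup F] [NormedSpace ℝ F]
    [FiniteDimensional ℝ F] (A : Type) [TopologicalSpace A] [CompactSpace A] [T2Space A]
    [ConnectedSpace A] [ChartedSpace F A] [IsManifold 𝓘(ℝ, F) ∞ A] (hA : Aspherical A) :
    ∃ (X : Type) (_ : MetricSpace X) (q : X → A), ProperSpace X ∧ ContractibleSpace X ∧
      LocallyPathConnectedSpace X ∧ IsCoveringMap q ∧
      ∀ γ : X → X, Continuous γ → q ∘ γ = q → ∀ a b, dist (γ a) (γ b) ≤ dist a b := by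
  obtain ⟨X, _, q, hX, hq⟩ := hA
  let L := toEuclidean (E := F)
  obtain ⟨g, -⟩ := P290K89.exists_inv (X := A) (id : F → F)
    ((innerSL ℝ).bilinearComp L.toContinuousLinearMap L.toContinuousLinearMap)
    (fun v w => real_inner_comm (L w) (L v))
    (fun v hv => real_inner_self_pos.2 fun h => hv (L.map_eq_zero_iff.1 h)) (fun _ _ => rfl)
    (fun _ _ _ _ => rfl)
  let : RiemannianBundle fun x : A => TangentSpace 𝓘(ℝ, F) x := ⟨g.toRiemannianMetric⟩
  let := riemMetric F A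
  have : IsRiemannianManifold 𝓘(ℝ, F) A := ⟨fun _ _ => rfl⟩
  have := t2_of_covering hq
  have hf := hq.isLocalHomeomorph
  let := riemMetric F (Cov hf)
  obtain ⟨h1, h2, h3⟩ := cov_pack F hf hq IsClosedEmbedding.id rfl
  exact ⟨Cov hf, this, Cov.p hf, hP F _, hX, ChartedSpace.locallyPathConnectedSpace F _, hq, h3⟩

theorem Wd.scale {n : ℕ} {C σ : ℝ} (h : Wd n 1 C) (hσ : 0 < σ) : Wd n σ (C / √σ) := by
  intro E _ _ _ M _ _ _ _ _ _ hn hc hs
  have h0 := Real.sqrt_pos.2 hσ
  obtain ⟨V, K, f, h1, h2, h3⟩ := h E (Scl h0 M) hn inferInstance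
    (scal_scl h0 (by rwa [Real.sq_sqrt hσ.le]))
  exact ⟨V, K, f, h1, h2, fun x y hxy => (le_div_iff₀' h0).2 (h3 x y hxy)⟩

theorem map_id_injective {X : Type} [TopologicalSpace X] (a : X) :
    Function.Injective (FundamentalGroup.map (ContinuousMap.id X) a) := by
  rintro ⟨γ⟩ ⟨γ'⟩ h
  exact h

section main

variable {n : ℕ} {σ C : ℝ} (hn3 : 3 ≤ n) {E : Type} [NormedAddCommGroup E] [NormedSpace ℝ E]
  [FiniteDimensional ℝ E] {M : Type} [MetricSpace M]
include hn3

theorem cube_of (h : UrysohnWidthLE M (n - 2) C) (φ : C(Fin (n - 1) → unitInterval, M)) :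
    ∃ i x y, x i = 0 ∧ y i = 1 ∧ dist (φ x) (φ y) ≤ C := by
  obtain ⟨V, K, f, h1, h2, h3⟩ := h
  obtain ⟨S, _, g, hg, hl, hgf⟩ := exists_fin (m := n - 1)
    (fun s hs => (h1 s hs).trans (by omega)) (h2.comp φ.continuous)
  obtain ⟨i, x, y, hx, hy, hxy⟩ := cube (by omega) hg hl
  exact ⟨i, x, y, hx, hy, h3 _ _ (hgf x y hxy)⟩

theorem uc_of (h : UrysohnWidthLE M (n - 2) C) (F : Type) [NormedAddCommGroup F] [NormedSpace ℝ F]
    [FiniteDimensional ℝ F] (X : Type) [MetricSpace X] [ProperSpace X] [hX : Nonempty X]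
    [ChartedSpace F X] [IsManifold 𝓘(ℝ, F) ∞ X] (hF : n - 1 ≤ Module.finrank ℝ F)
    (hU : UniformlyContractible X) (φ : C(X, M)) (D : ℝ) :
    ∃ x y, D < dist x y ∧ dist (φ x) (φ y) ≤ C := by
  obtain ⟨V, K, f, h1, h2, h3⟩ := h
  by_contra hcon
  push Not at hcon
  exact not_contr (E := F) rfl (by omega) hX.some (fun s hs => (h1 s hs).trans (by omega))
    (h2.comp φ.continuous) (C := D)
    (fun x y hxy => not_lt.1 fun h4 => (hcon x y h4).not_ge (h3 _ _ hxy)) hU

variable [ChartedSpace E M] [RiemannianBundle (fun x : M => TangentSpace 𝓘(ℝ, E) x)]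
  [IsManifold 𝓘(ℝ, E) ∞ M]
  [IsContMDiffRiemannianBundle 𝓘(ℝ, E) ∞ E (fun x : M => TangentSpace 𝓘(ℝ, E) x)]
  [IsRiemannianManifold 𝓘(ℝ, E) M] [CompleteSpace M] (hP : Pr) (hn : Module.finrank ℝ E = n)
include hP hn

theorem nuc_of (h : UrysohnWidthLE M (n - 2) C) (hM : Nonempty M) :
    ¬ UniformlyContractible M := by
  intro hU
  have := hP E M
  obtain ⟨x, y, h1, h2⟩ := uc_of hn3 h E M (by omega) hU (ContinuousMap.id M) C
  exact h1.not_ge h2

theorem inj_of (h : Wd n σ C) (hs : ScalGE E M σ) (F : Type) [NormedAddCommGroup F]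
    [NormedSpace ℝ F] [FiniteDimensional ℝ F] (A : Type) [TopologicalSpace A] [CompactSpace A]
    [T2Space A] [ConnectedSpace A] [ChartedSpace F A] [IsManifold 𝓘(ℝ, F) ∞ A]
    (hF : n - 1 ≤ Module.finrank ℝ F) (hA : Aspherical A) (ψ : C(A, M)) (a : A) :
    ¬ Function.Injective (FundamentalGroup.map ψ a) := by
  obtain ⟨X, _, q, _, hq⟩ := hA
  have := hP E M
  have : Nonempty M := ⟨ψ a⟩
  obtain ⟨W, _, _, _, _, _, _, p, hc, hW, _, hp, hps, hd⟩ := exists_cover E M hs
  have := hP E W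
  have : LocallyPathConnectedSpace W := ChartedSpace.locallyPathConnectedSpace E W
  obtain ⟨V, K, f, h1, h2, h3⟩ := h E W hn hc hW
  exact no_incompressible hp hps hd (F := F) (by omega) hq ψ a
    (fun s hs => (h1 s hs).trans (by omega)) h2 h3

omit [CompleteSpace M] in
theorem dom_of (h : Wd n σ C) (hs : ScalGE E M σ) (hM : CompactSpace M) (F : Type)
    [NormedAddCommGroup F] [NormedSpace ℝ F] [FiniteDimensional ℝ F] (A : Type)
    [TopologicalSpace A] [CompactSpace A] [T2Space A] [ConnectedSpace A] [ChartedSpace F A]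
    [IsManifold 𝓘(ℝ, F) ∞ A] (hA : Aspherical A) (ψ : C(M, A)) (e : OpenPartialHomeomorph M A)
    (he : EqOn ψ e e.source) (p : M) (hp : p ∈ e.source) : ∃ x, x ≠ p ∧ ψ x = ψ p := by
  by_contra hcon
  push Not at hcon
  obtain ⟨X, _, q, _, _, _, hq, hd⟩ := exists_asph hP F A hA
  obtain ⟨x₀, hx₀⟩ := surj_of_covering hq (ψ p)
  have hg := pull_covering hq ψ
  set Y := {z : M × X // ψ z.1 = q z.2}
  let y₀ : Y := ⟨(p, x₀), hx₀.symm⟩
  have : LocallyConnectedSpace Y := ChartedSpace.locallyConnectedSpace E (Cov hg.isLocalHomeomorph)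
  have : ConnectedSpace (connectedComponent y₀) :=
    isConnected_iff_connectedSpace.1 isConnected_connectedComponent
  have hι := (isClosed_connectedComponent (x := y₀)).isClosedEmbedding_subtypeVal
  have hf := hg.isLocalHomeomorph.comp
    (isOpen_connectedComponent (x := y₀)).isOpenEmbedding_subtypeVal.isLocalHomeomorph
  let := riemMetric E (Cov hf)
  obtain ⟨_, h2, h3⟩ := cov_pack E hf hg hι rfl
  have := hP E (Cov hf)
  obtain ⟨V, K, f, hK, hfc, hC⟩ := h E (Cov hf) hn h2 (cov_scal E hf hs)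
  let w₀ : Cov hf := ⟨y₀, mem_connectedComponent⟩
  let φ : Cov hf → X := fun w => w.1.1.2
  have hj : IsClosedEmbedding fun w : Cov hf => w.1.1 :=
    (isClosed_eq (by fun_prop) (hq.continuous.comp continuous_snd)).isClosedEmbedding_subtypeVal.comp
      hι
  have hφ : Continuous φ := continuous_snd.comp hj.continuous
  have hqφ : ∀ w, q (φ w) = ψ (Cov.p hf w) := fun w => w.1.2.symm
  have hsurj : Function.Surjective (Cov.p hf) := by
    intro m
    have : Nonempty M := ⟨p⟩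
    have := connected_riem E M
    have : LocallyPathConnectedSpace M := ChartedSpace.locallyPathConnectedSpace E M
    have : PathConnectedSpace M := PathConnectedSpace.of_locallyPathConnectedSpace
    obtain ⟨Γ, h4, h5⟩ := hg.exists_path_lifts (PathConnectedSpace.somePath p m).toContinuousMap y₀
      (Path.source _)
    exact ⟨⟨Γ 1, (isPreconnected_range Γ.continuous).subset_connectedComponent ⟨0, h5⟩ ⟨1, rfl⟩⟩,
      (congrFun h4 1).trans (Path.target _)⟩
  obtain ⟨D, hD⟩ := exists_ball (W := Cov hf) (f := Cov.p hf) hf.isOpenMap hsurj w₀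
  obtain ⟨k, hk, hkq⟩ := hq.isLocalHomeomorph x₀
  refine not_dom hn (by omega) hφ (p := w₀)
    (fun r => (hj.isCompact_preimage
      (isCompact_univ.prod (isCompact_closedBall x₀ r))).of_isClosed_subset
      (isClosed_closedBall.preimage hφ) fun w hw => ⟨trivial, hw⟩)
    (e := (((Cov.loc hf w₀).trans e).trans k.symm).restrOpen _ (k.open_source.preimage hφ))
    ⟨⟨⟨Cov.mem_loc hf w₀, ?_⟩, ?_⟩, hk⟩ (fun w hw => ?_) (fun w hw => ?_)
    (fun s hs => (hK s hs).trans (by omega)) hfc (C := diam (φ '' closedBall w₀ (D + max C 0)))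
    (fun a b hab => ?_) (uc_of_deck hq hd)
  · change Cov.loc hf w₀ w₀ ∈ e.source
    rw [Cov.loc_eq]
    exact hp
  · change e (Cov.loc hf w₀ w₀) ∈ k.target
    rw [Cov.loc_eq]
    change e p ∈ k.target
    rw [← he hp, ← hx₀, hkq]
    exact k.map_source hk
  · have h4 : Cov.loc hf w₀ w ∈ e.source := hw.1.1.2
    change φ w = k.symm (e (Cov.loc hf w₀ w))
    rw [← he h4, Cov.loc_eq, ← hqφ, hkq, k.left_inv hw.2]
  · refine hj.injective (Prod.ext ?_ hw)
    by_contra h4
    exact hcon _ h4 ((hqφ w).symm.trans ((congrArg q hw).trans hx₀))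
  · obtain ⟨a', ha, ha'⟩ := hD (mem_univ (Cov.p hf a))
    obtain ⟨γ, γ', c1, c2, d1, d2, h4, h5⟩ := exists_deck₂ hq (x := φ a) (y := φ a')
      (by rw [hqφ, hqφ]; exact congrArg ψ ha'.symm)
    let δ : Y → Y := fun y => ⟨(y.1.1, γ y.1.2), y.2.trans (congrFun c2 _).symm⟩
    have hδ : Continuous δ := Continuous.subtype_mk (by fun_prop) _
    have h6 : δ a.1 = a'.1 := Subtype.ext (Prod.ext ha'.symm h4)
    have h7 : ∀ w : Cov hf, δ w.1 ∈ connectedComponent y₀ := fun w => by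
      exact (connectedComponent_eq a'.2).symm.subset
        ((isPreconnected_connectedComponent.image δ hδ.continuousOn).subset_connectedComponent
        ⟨a.1, a.2, h6⟩ ⟨w.1, w.2, rfl⟩)
    let δ' : Cov hf → Cov hf := fun w => ⟨δ w.1, h7 w⟩
    have h8 := h3 δ' ((hδ.comp hι.continuous).subtype_mk _) rfl b a
    have h9 : dist a' w₀ < D := ha
    rw [show δ' a = a' from Subtype.ext h6] at h8
    rw [← h5 (φ a), ← h5 (φ b), h4]
    refine (hd γ' d1 d2 _ _).trans (dist_le_diam_of_mem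
      ((isCompact_closedBall _ _).image hφ).isBounded ⟨a', mem_closedBall.2 ?_, rfl⟩
      ⟨δ' b, mem_closedBall.2 ?_, rfl⟩)
    · linarith [le_max_right C 0]
    · linarith [le_max_left C 0, hC b a hab.symm, dist_triangle (δ' b) a' w₀]

theorem asph_of (h : Wd n σ C) (hs : ScalGE E M σ) (hM : CompactSpace M) : ¬ Aspherical M := by
  intro hA
  obtain ⟨X, _, q, _, hq⟩ := id hA
  have : Nonempty M := ⟨q (Classical.arbitrary X)⟩
  have := connected_riem E M
  exact inj_of hn3 hP hn h hs E M (by omega) hA (ContinuousMap.id M) (Classical.arbitrary M)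
    (map_id_injective _)

end main

end Vale.Agent.N210
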