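import Mathlib.Topology.Homotopy.Contractible
import Mathlib.Topology.MetricSpace.Pseudo.Lemmas
import Mathlib.Topology.Covering.Basic

namespace Vale.Agent.N210

/-- `X` is uniformly contractible: for every `r` there is `R ≥ r` such that every open ball of
radius `r` can be contracted to a point inside the concentric ball of radius `R`. -/
def UniformlyContractible (X : Type) [MetricSpace X] : Prop :=
  ∀ r : ℝ, ∃ (R : ℝ) (h : r ≤ R), ∀ x : X,
    (ContinuousMap.inclusion (Metric.ball_subset_ball (x := x) h)).Nullhomotopic

/-- `A` is aspherical: it has a contractible covering space. -/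
def Aspherical (A : Type) [TopologicalSpace A] : Prop :=
  ∃ (X : Type) (_ : TopologicalSpace X) (q : X → A), ContractibleSpace X ∧ IsCoveringMap q

end Vale.Agent.N210
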