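import Vale.Agent.N210.Par

/-!
# N210 / Deg : the degree modulo two is invariant under compact homotopies
-/

open Set Topology Metric Filter MeasureTheory
open scoped ContDiff Manifold

namespace Vale.Agent.N210

variable {n : ℕ} {E : Type} [NormedAddCommGroup E] [NormedSpace ℝ E] [FiniteDimensional ℝ E]
  {X : Type} [TopologicalSpace X] [ChartedSpace E X]

variable (E) in
/-- a chart with values in `ℝⁿ` whose inverse is smooth -/
def Sm (c : OpenPartialHomeomorph X (Fin n → ℝ)) : Prop :=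
  ContMDiffOn 𝓘(ℝ, Fin n → ℝ) 𝓘(ℝ, E) ∞ c.symm c.target

omit [FiniteDimensional ℝ E] in
theorem Sm.comp {c : OpenPartialHomeomorph X (Fin n → ℝ)} (hc : Sm E c) {G : X → Fin n → ℝ}
    (hG : ContMDiff 𝓘(ℝ, E) 𝓘(ℝ, Fin n → ℝ) ∞ G) {s : Set (Fin n → ℝ)} (hs : s ⊆ c.target) :
    ContDiffOn ℝ ∞ (fun w => G (c.symm w)) s :=
  contMDiffOn_iff_contDiffOn.1 (hG.comp_contMDiffOn (hc.mono hs))

omit [ChartedSpace E X] in
theorem exists_cb {c : OpenPartialHomeomorph X (Fin n → ℝ)} {x : X} (hx : x ∈ c.source)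
    {U : Set X} (hU : U ∈ 𝓝 x) : ∃ r > (0 : ℝ), ball (c x) (2 * r) ⊆ c.target ∧
      ∀ w ∈ ball (c x) (2 * r), c.symm w ∈ U := by
  have h1 : c.target ∩ c.symm ⁻¹' U ∈ 𝓝 (c x) := by
    refine inter_mem (c.open_target.mem_nhds (c.map_source hx)) ?_
    refine (c.continuousAt_symm (c.map_source hx)).preimage_mem_nhds ?_
    rwa [c.left_inv hx]
  obtain ⟨ε, hε, h⟩ := Metric.mem_nhds_iff.1 h1
  refine ⟨ε / 2, half_pos hε, fun w hw => (h ?_).1, fun w hw => (h ?_).2⟩ <;>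
    rwa [mul_div_cancel₀ _ two_ne_zero] at hw

omit [ChartedSpace E X] in
/-- small time steps -/
theorem exists_steps {F : Type} [PseudoMetricSpace F] {u : X × ℝ → F} (hu : Continuous u)
    {K : Set X} (hK : IsCompact K) {ε : ℝ} (hε : 0 < ε) : ∃ δ > (0 : ℝ), ∀ x ∈ K,
      ∀ s ∈ Icc (0 : ℝ) 1, ∀ t ∈ Icc (0 : ℝ) 1, dist s t < δ → dist (u (x, s)) (u (x, t)) < ε := by
  have h1 : ∀ᶠ d in 𝓝 (0 : ℝ), ∀ z ∈ K ×ˢ Icc (0 : ℝ) 1,
      dist (u (z.1, z.2 + d)) (u z) < ε := by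
    refine (hK.prod isCompact_Icc).eventually_forall_of_forall_eventually fun z _ => ?_
    have h2 : Continuous fun q : ℝ × X × ℝ => dist (u (q.2.1, q.2.2 + q.1)) (u q.2) := by
      fun_prop
    exact h2.continuousAt.eventually_lt continuousAt_const (by simpa using hε)
  obtain ⟨δ, hδ, h⟩ := Metric.eventually_nhds_iff.1 h1
  refine ⟨δ, hδ, fun x hx s _ t ht hst => ?_⟩
  have h3 := h (y := s - t) (by rwa [dist_zero_right, ← dist_eq_norm]) (x, t) ⟨hx, ht⟩
  simpa using h3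

omit [FiniteDimensional ℝ E] in
/-- One time step. -/
theorem time_step {ι : Type} [Fintype ι] {c : ι → OpenPartialHomeomorph X (Fin n → ℝ)}
    {a : ι → Fin n → ℝ} {r : ι → ℝ} (hc : ∀ i, Sm E (c i)) (hr : ∀ i, 0 < r i)
    (hb : ∀ i, ball (a i) (2 * r i) ⊆ (c i).target) {K : Set X}
    (hK : K ⊆ ⋃ i, cb (c i) (a i) (r i)) {G : Finset ι → X → Fin n → ℝ}
    (hG : ∀ s, ContMDiff 𝓘(ℝ, E) 𝓘(ℝ, Fin n → ℝ) ∞ (G s)) {y : Fin n → ℝ}
    (hy : ∀ s i, Reg (fun w => G s ((c i).symm w)) (a i) (r i) y) [DecidableEq ι]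
    (he : ∀ s i, i ∉ s → ∀ x ∉ cb (c i) (a i) (r i), G (insert i s) x = G s x)
    {A : Set X} (hA : A ⊆ K)
    (hW : ∀ i, cb (c i) (a i) (r i) ⊆ A ∨ ∀ s, ∀ x ∈ cb (c i) (a i) (r i), x ∈ A → G s x ≠ y) :
    ∀ s, Even {x | x ∈ A ∧ G s x = y}.ncard ↔ Even {x | x ∈ A ∧ G ∅ x = y}.ncard := by
  have hfin : ∀ s, {x | x ∈ A ∧ G s x = y}.Finite := fun s => by
    refine (finite_iUnion fun i => cb_finite (hr i) (hb i) ((hc i).comp (hG s) (hb i))
      (hy s i)).subset fun x hx => ?_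
    obtain ⟨i, hi⟩ := mem_iUnion.1 (hK (hA hx.1))
    exact mem_iUnion.2 ⟨i, hi, hx.2⟩
  intro s
  induction s using Finset.induction_on with
  | empty => rfl
  | insert i s hi ih =>
    rw [← ih]
    refine even_of_local (W := cb (c i) (a i) (r i)) (hfin _) (hfin _) ?_ ?_
    · ext x
      simp only [Set.mem_sdiff, mem_ofPred_eq]
      exact and_congr_left fun hx => by rw [he s i hi x hx]
    · rcases hW i with h | h
      · have h1 : ∀ s, {x | x ∈ A ∧ G s x = y} ∩ cb (c i) (a i) (r i) =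
            {x | x ∈ cb (c i) (a i) (r i) ∧ G s x = y} := fun s => by
          ext x
          exact ⟨fun hx => ⟨hx.2, hx.1.2⟩, fun hx => ⟨⟨h hx.1, hx.2⟩, hx.1⟩⟩
        rw [h1, h1]
        exact (cb_parity (hr i) (hb i) ((hc i).comp (hG s) (hb i)) ((hc i).comp (hG _) (hb i))
          (hy s i) (hy _ i) (he s i hi)).symm
      · have h1 : ∀ s, {x | x ∈ A ∧ G s x = y} ∩ cb (c i) (a i) (r i) = ∅ := fun s =>
          eq_empty_of_forall_notMem fun x hx => h s x hx.2 hx.1.1 hx.1.2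
        rw [h1, h1]

theorem seg_ne {F : Type} [NormedAddCommGroup F] [NormedSpace ℝ F] {a b : F} {t : ℝ}
    (ht : t ∈ Icc (0 : ℝ) 1) (h : ‖b - a‖ < ‖a‖) : (1 - t) • a + t • b ≠ 0 := by
  intro h0
  have h1 : a = -(t • (b - a)) := by
    rw [eq_neg_iff_add_eq_zero, ← h0, smul_sub, sub_smul, one_smul]
    abel
  have h2 : ‖a‖ ≤ ‖b - a‖ := by
    conv_lhs => rw [h1, norm_neg, norm_smul, Real.norm_eq_abs, abs_of_nonneg ht.1]
    exact mul_le_of_le_one_left (norm_nonneg _) ht.2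
  linarith

variable [IsManifold 𝓘(ℝ, E) ∞ X] [SigmaCompactSpace X] [T2Space X]

/-- A simple zero survives a homotopy during which the zeros stay in a compact region. -/
theorem deg (hch : ∀ x : X, ∃ c : OpenPartialHomeomorph X (Fin n → ℝ), x ∈ c.source ∧ Sm E c)
    {α : X × ℝ → ℝ} {u : X × ℝ → Fin n → ℝ} (hα : Continuous α) (hu : Continuous u)
    {K : Set X} (hK : IsCompact K) (hαK : ∀ x, ∀ t ∈ Icc (0 : ℝ) 1, α (x, t) ≤ 2 → x ∈ K)
    (hgap : ∀ x, ∀ t ∈ Icc (0 : ℝ) 1, 1 ≤ α (x, t) → α (x, t) ≤ 2 → u (x, t) ≠ 0)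
    {c₀ : OpenPartialHomeomorph X (Fin n → ℝ)} {p : X} (hp : p ∈ c₀.source) (hc₀ : Sm E c₀)
    (h0 : ∀ᶠ x in 𝓝 p, u (x, 0) = c₀ x - c₀ p) (hαp : α (p, 0) < 1)
    (huniq : ∀ x, α (x, 0) ≤ 2 → u (x, 0) = 0 → x = p) :
    ∃ x, α (x, 1) ≤ 2 ∧ u (x, 1) = 0 := by
  classical
  by_contra hcon
  push Not at hcon
  have hα0 : ∀ᶠ x in 𝓝 p, α (x, 0) < 1 :=
    (hα.comp (Continuous.prodMk_left 0)).continuousAt.eventually_lt continuousAt_const hαp
  obtain ⟨r₀, hr₀, hb₀, hU₀⟩ := exists_cb hp (h0.and hα0)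
  have hC : IsCompact ((K ×ˢ Icc (0 : ℝ) 1) ∩ {z | α z ≤ 2 ∧
      (1 ≤ α z ∨ z.2 = 1 ∨ (z.2 = 0 ∧ z.1 ∈ (cb c₀ (c₀ p) r₀)ᶜ))}) := by
    refine (hK.prod isCompact_Icc).inter_right ((isClosed_le hα continuous_const).inter
      ((isClosed_le continuous_const hα).union ((isClosed_eq continuous_snd continuous_const).union
      ((isClosed_eq continuous_snd continuous_const).inter
      (cb_open.isClosed_compl.preimage continuous_fst)))))
  obtain ⟨κ, hκ, hκC⟩ := hC.exists_forall_le' (f := fun z => ‖u z‖) hu.norm.continuousOn (a := 0)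
    (by
      rintro ⟨x, t⟩ ⟨⟨-, ht⟩, h2, h | h | ⟨h, h'⟩⟩
      · exact norm_pos_iff.2 (hgap x t ht h h2)
      · obtain rfl : t = 1 := h
        exact norm_pos_iff.2 (hcon x h2)
      · obtain rfl : t = 0 := h
        refine norm_pos_iff.2 fun h3 => h' ?_
        rw [huniq x h2 h3]
        exact ⟨hp, mem_ball_self hr₀⟩)
  have hsm : ∀ x, ∀ t ∈ Icc (0 : ℝ) 1, α (x, t) ≤ 2 → ‖u (x, t)‖ < κ →
      α (x, t) < 1 ∧ t ≠ 1 ∧ (t = 0 → x ∈ cb c₀ (c₀ p) r₀) := by
    intro x t ht h2 h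
    have h3 := fun h4 => h.not_ge (hκC (x, t) ⟨⟨hαK x t ht h2, ht⟩, h2, h4⟩)
    refine ⟨not_le.1 fun h4 => h3 (Or.inl h4), fun h4 => h3 (Or.inr (Or.inl h4)), fun h4 => ?_⟩
    by_contra h5
    exact h3 (Or.inr (Or.inr ⟨h4, h5⟩))
  choose c hcx hc using hch
  have hloc : ∀ x, ∀ᶠ x' in 𝓝 x, ∀ t ∈ Icc (0 : ℝ) 1, dist (α (x', t)) (α (x, t)) < 1 / 4 := by
    intro x
    refine isCompact_Icc.eventually_forall_of_forall_eventually fun t _ => ?_
    have h2 : Continuous fun q : X × ℝ => dist (α q) (α (x, q.2)) := by fun_prop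
    exact h2.continuousAt.eventually_lt continuousAt_const (by simp)
  choose r hr hb hU using fun x => exists_cb (hcx x) (hloc x)
  obtain ⟨T, -, hT⟩ := hK.elim_nhds_subcover (fun x => cb (c x) (c x x) (r x))
    fun x _ => cb_open.mem_nhds ⟨hcx x, mem_ball_self (hr x)⟩
  have hT' : K ⊆ ⋃ i : T, cb (c i) (c i i) (r i) := fun x hx => by
    obtain ⟨i, hi, h⟩ := mem_iUnion₂.1 (hT hx)
    exact mem_iUnion.2 ⟨⟨i, hi⟩, h⟩
  obtain ⟨ψ, hψ⟩ := SmoothPartitionOfUnity.exists_isSubordinate 𝓘(ℝ, E) hK.isClosed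
    (fun i : T => cb (c i) (c i i) (r i)) (fun _ => cb_open) hT'
  obtain ⟨δ₁, hδ₁, h₁⟩ := exists_steps hu hK (ε := κ / 8) (by positivity)
  obtain ⟨δ₂, hδ₂, h₂⟩ := exists_steps hα hK (ε := 1 / 2) (by positivity)
  obtain ⟨N, hN⟩ := exists_nat_one_div_lt (lt_min hδ₁ hδ₂)
  let τ : ℕ → ℝ := fun j => j / (N + 1)
  have hτ : ∀ j ≤ N + 1, τ j ∈ Icc (0 : ℝ) 1 := fun j hj =>
    ⟨by positivity, div_le_one_of_le₀ (by exact_mod_cast hj) (by positivity)⟩
  have hτd : ∀ j, dist (τ (j + 1)) (τ j) < min δ₁ δ₂ := fun j => by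
    have : τ (j + 1) - τ j = 1 / (N + 1) := by simp only [τ]; push_cast; ring
    rw [Real.dist_eq, this, abs_of_pos (by positivity)]
    exact hN
  choose v hv _ using fun j : ℕ =>
    (hu.comp (Continuous.prodMk_left (τ j))).exists_contMDiff_approx 𝓘(ℝ, E) ⊤
      (ε := fun _ => κ / 8) continuous_const (fun _ => by positivity)
  have hv' : ∀ j x, ‖v j x - u (x, τ j)‖ < κ / 8 := fun j x => by
    rw [← dist_eq_norm]; exact hv j x
  let G : ℕ → Finset T → X → Fin n → ℝ := fun j s x =>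
    v j x + (∑ i ∈ s, ψ i x) • (v (j + 1) x - v j x)
  have hG : ∀ j s, ContMDiff 𝓘(ℝ, E) 𝓘(ℝ, Fin n → ℝ) ∞ (G j s) := fun j s =>
    (v j).contMDiff.add ((contMDiff_finsetSum fun i _ => (ψ i).contMDiff).smul
      ((v (j + 1)).contMDiff.sub (v j).contMDiff))
  obtain ⟨y, hy0, hy⟩ : ∃ y ∈ ball (0 : Fin n → ℝ) (κ / 8),
      Reg (fun w => v 0 (c₀.symm w)) (c₀ p) r₀ y ∧ ∀ (q : ℕ × Finset T × T),
        Reg (fun w => G q.1 q.2.1 ((c q.2.2).symm w)) (c q.2.2 q.2.2) (r q.2.2) y := by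
    have h3 : ∀ᵐ y : Fin n → ℝ, Reg (fun w => v 0 (c₀.symm w)) (c₀ p) r₀ y ∧
        ∀ (q : ℕ × Finset T × T),
        Reg (fun w => G q.1 q.2.1 ((c q.2.2).symm w)) (c q.2.2 q.2.2) (r q.2.2) y :=
      Eventually.and (null_not_reg hr₀ (hc₀.comp (v 0).contMDiff hb₀))
        (ae_all_iff.2 fun q => null_not_reg (hr _) ((hc _).comp (hG _ _) (hb _)))
    obtain ⟨y, h4, h5⟩ := (Measure.dense_of_ae h3).exists_mem_open isOpen_ball
      ⟨0, mem_ball_self (by positivity : 0 < κ / 8)⟩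
    exact ⟨y, h5, h4⟩
  rw [mem_ball_zero_iff] at hy0
  have hψ1 : ∀ (s : Finset T) x, 0 ≤ ∑ i ∈ s, ψ i x ∧ ∑ i ∈ s, ψ i x ≤ 1 := fun s x => by
    refine ⟨Finset.sum_nonneg fun i _ => ψ.nonneg i x, le_trans ?_ (ψ.sum_le_one x)⟩
    rw [finsum_eq_sum_of_fintype]
    exact Finset.sum_le_univ_sum_of_nonneg fun i => ψ.nonneg i x
  have hvy : ∀ j x, v j x = y → ‖u (x, τ j)‖ < κ := fun j x h => by
    have h3 := hv' j x
    rw [h] at h3
    have h4 := norm_sub_norm_le (u (x, τ j)) y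
    rw [norm_sub_rev] at h4
    linarith
  have hGy : ∀ j ≤ N, ∀ s, ∀ x ∈ K, G j s x = y → ‖u (x, τ j)‖ < κ := by
    intro j hj s x hx h
    have h3 := h₁ x hx _ (hτ (j + 1) (by omega)) _ (hτ j (by omega))
      ((hτd j).trans_le (min_le_left _ _))
    rw [dist_eq_norm] at h3
    have h4 : ‖v (j + 1) x - v j x‖ ≤ 3 * (κ / 8) := by
      have e : v (j + 1) x - v j x = (v (j + 1) x - u (x, τ (j + 1))) +
          (u (x, τ (j + 1)) - u (x, τ j)) - (v j x - u (x, τ j)) := by abel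
      rw [e]
      refine (norm_sub_le _ _).trans ?_
      linarith [norm_add_le (v (j + 1) x - u (x, τ (j + 1))) (u (x, τ (j + 1)) - u (x, τ j)),
        hv' (j + 1) x, hv' j x]
    have h5 : ‖(∑ i ∈ s, ψ i x) • (v (j + 1) x - v j x)‖ ≤ 3 * (κ / 8) := by
      rw [norm_smul, Real.norm_eq_abs, abs_of_nonneg (hψ1 s x).1]
      exact (mul_le_of_le_one_left (norm_nonneg _) (hψ1 s x).2).trans h4
    have e : u (x, τ j) = y - (∑ i ∈ s, ψ i x) • (v (j + 1) x - v j x) -
        (v j x - u (x, τ j)) := by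
      rw [← h]
      simp only [G]
      abel
    rw [e]
    refine (norm_sub_le _ _).trans_lt ?_
    linarith [norm_sub_le y ((∑ i ∈ s, ψ i x) • (v (j + 1) x - v j x)), hv' j x]
  have key : ∀ j ≤ N + 1, ¬ Even {x | x ∈ {x | α (x, τ j) < 3 / 2} ∧ v j x = y}.ncard := by
    intro j
    induction j with
    | zero =>
      intro _
      have hτ0 : τ 0 = 0 := by simp [τ]
      have hb' : ball (c₀ p) r₀ ⊆ ball (c₀ p) (2 * r₀) := ball_subset_ball (by linarith)
      have h3 : {x | x ∈ {x | α (x, τ 0) < 3 / 2} ∧ v 0 x = y} =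
          {x | x ∈ cb c₀ (c₀ p) r₀ ∧ v 0 x = y} := by
        ext x
        refine and_congr_left fun h => ⟨fun h4 => ?_, fun h4 => ?_⟩
        · exact (hsm x _ (hτ 0 (by omega)) (le_trans (le_of_lt h4) (by norm_num))
            (hvy 0 x h)).2.2 hτ0
        · have h5 := (hU₀ _ (hb' h4.2)).2
          rw [c₀.left_inv h4.1] at h5
          rw [mem_ofPred_eq, hτ0]
          linarith
      rw [h3, cb_ncard (hb'.trans hb₀), ← parity (f₀ := fun w => w - c₀ p) hr₀
        (contDiff_id.sub contDiff_const).contDiffOn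
        ((hc₀.comp (v 0).contMDiff hb₀).sub contDiffOn_const) ?_ ?_ (reg_sub hy.1)]
      · have h4 : {w | w ∈ ball (c₀ p) r₀ ∧ w - c₀ p = 0} = {c₀ p} := by
          ext w
          simp only [mem_ofPred_eq, sub_eq_zero, mem_singleton_iff]
          exact ⟨fun h => h.2, fun h => ⟨h ▸ mem_ball_self hr₀, h⟩⟩
        rw [h4, ncard_singleton]
        decide
      · intro w hw t ht
        have h4 : w ∈ ball (c₀ p) (2 * r₀) :=
          closedBall_subset_ball (by linarith) (sphere_subset_closedBall hw)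
        obtain ⟨h5, h6⟩ := hU₀ w h4
        rw [c₀.right_inv (hb₀ h4)] at h5
        have h7 : κ ≤ ‖w - c₀ p‖ := by
          by_contra h7
          have h8 := (hsm _ 0 (left_mem_Icc.2 zero_le_one) (by linarith)
            (by rw [h5]; exact not_le.1 h7)).2.2 rfl
          have h9 := h8.2
          rw [mem_preimage, c₀.right_inv (hb₀ h4)] at h9
          exact (ne_of_lt h9) hw
        refine seg_ne ht ?_
        have h8 := hv' 0 (c₀.symm w)
        rw [hτ0, h5] at h8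
        rw [sub_right_comm]
        linarith [norm_sub_le (v 0 (c₀.symm w) - (w - c₀ p)) y]
      · intro w _ _
        rw [fderiv_sub_const, fderiv_fun_id]
        exact LinearMap.det_id.trans_ne one_ne_zero
    | succ j ih =>
      intro hj
      have hAK : {x | α (x, τ j) < 3 / 2} ⊆ K := fun x hx =>
        hαK x _ (hτ j (by omega)) (le_trans (le_of_lt hx) (by norm_num))
      have h3 := time_step (c := fun i : T => c i) (a := fun i : T => c i i)
        (r := fun i : T => r i) (fun i => hc i) (fun i => hr i) (fun i => hb i) hT' (hG j)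
        (fun s i => hy.2 (j, s, i)) (fun s i hi x hx => by
          have h4 : ψ i x = 0 := by
            by_contra h4
            exact hx (hψ i (subset_tsupport _ h4))
          simp only [G]
          rw [Finset.sum_insert hi, h4, zero_add]) hAK (fun i => by
          by_cases h4 : cb (c i) (c i i) (r i) ⊆ {x | α (x, τ j) < 3 / 2}
          · exact Or.inl h4
          refine Or.inr fun s x hx hx' h => h4 fun z hz => ?_
          have h5 := (hsm x _ (hτ j (by omega)) (le_trans (le_of_lt hx') (by norm_num))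
            (hGy j (by omega) s x (hAK hx') h)).1
          have hb' : ball (c i i) (r i) ⊆ ball (c i i) (2 * r i) :=
            ball_subset_ball (by linarith [hr i])
          have h6 := hU i _ (hb' hx.2) _ (hτ j (by omega))
          have h7 := hU i _ (hb' hz.2) _ (hτ j (by omega))
          rw [(c i).left_inv hx.1, Real.dist_eq, abs_lt] at h6
          rw [(c i).left_inv hz.1, Real.dist_eq, abs_lt] at h7
          rw [mem_ofPred_eq]
          linarith [h6.1, h7.2]) Finset.univ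
      have h4 : ∀ x ∈ K, G j Finset.univ x = v (j + 1) x := fun x hx => by
        simp only [G]
        rw [← finsum_eq_sum_of_fintype, ψ.sum_eq_one hx, one_smul, add_sub_cancel]
      have h5 : {x | x ∈ {x | α (x, τ (j + 1)) < 3 / 2} ∧ v (j + 1) x = y} =
          {x | x ∈ {x | α (x, τ j) < 3 / 2} ∧ G j Finset.univ x = y} := by
        have h6 : ∀ x ∈ K, |α (x, τ (j + 1)) - α (x, τ j)| < 1 / 2 := fun x hx =>
          h₂ x hx _ (hτ (j + 1) hj) _ (hτ j (by omega)) ((hτd j).trans_le (min_le_right _ _))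
        ext x
        constructor
        · rintro ⟨h7, h8⟩
          have h9 : α (x, τ (j + 1)) ≤ 2 := le_trans (le_of_lt h7) (by norm_num)
          have hx := hαK x _ (hτ (j + 1) hj) h9
          have h10 := (hsm x _ (hτ (j + 1) hj) h9 (hvy _ x h8)).1
          refine ⟨?_, (h4 x hx).trans h8⟩
          rw [mem_ofPred_eq]
          linarith [(abs_lt.1 (h6 x hx)).1]
        · rintro ⟨h7, h8⟩
          have hx := hAK h7
          have h10 := (hsm x _ (hτ j (by omega)) (le_trans (le_of_lt h7) (by norm_num))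
            (hGy j (by omega) _ x hx h8)).1
          refine ⟨?_, (h4 x hx).symm.trans h8⟩
          rw [mem_ofPred_eq]
          linarith [(abs_lt.1 (h6 x hx)).2]
      have h6 : G j ∅ = v j := by
        funext x
        simp [G]
      rw [h5, h3, h6]
      exact ih (by omega)
  refine key (N + 1) le_rfl ?_
  have hτ1 : τ (N + 1) = 1 := by
    simp only [τ]
    push_cast
    exact div_self (by positivity)
  have h3 : {x | x ∈ {x | α (x, τ (N + 1)) < 3 / 2} ∧ v (N + 1) x = y} = ∅ :=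
    eq_empty_of_forall_notMem fun x hx => (hsm x _ (hτ _ le_rfl)
      (le_trans (le_of_lt hx.1) (by norm_num)) (hvy _ x hx.2)).2.1 hτ1
  rw [h3, ncard_empty]
  decide

end Vale.Agent.N210
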