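import Vale.Agent.P210.Defs
import Vale.Agent.P264Z.Brouwer

/-!
# N210 / Fin : compact parts of complexes, general position, the cube inequality
-/

open Set Topology Metric Filter
open scoped ContDiff

namespace Vale.Agent.N210

open Vale.Agent.P210

/-- points of a simplex with at most `m` vertices -/
def Low (m : ℕ) {S : Type} (w : S → ℝ) : Prop :=
  ∃ s : Finset S, s.card ≤ m ∧ (∀ v ∉ s, w v = 0) ∧ ∑ v ∈ s, w v = 1

theorem Low.mono {m m' : ℕ} {S : Type} {w : S → ℝ} (h : Low m w) (hm : m ≤ m') : Low m' w := by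
  obtain ⟨s, h1, h2⟩ := h
  exact ⟨s, h1.trans hm, h2⟩

theorem coord_cont {V : Type} (K : PreAbstractSimplicialComplex V) (v : V) :
    Continuous fun y : Realization K => y.1 v := by
  refine continuous_iSup_dom.2 fun s => continuous_coinduced_dom.2 ?_
  exact (continuous_apply v).comp continuous_subtype_val

theorem finite_supp {Y : Type} [TopologicalSpace Y] [CompactSpace Y] {V : Type}
    {K : PreAbstractSimplicialComplex V} {f : Y → Realization K} (hf : Continuous f) :
    (range fun x => Function.support (f x).1).Finite := by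
  classical
  by_contra hinf
  set A : Set (Set V) := range fun x => Function.support (f x).1 with hA
  have hc : ∀ σ : A, ∃ x, Function.support (f x).1 = σ := fun σ => σ.2
  choose c hc using hc
  set T : Set (Realization K) := range fun σ : A => f (c σ) with hT
  have hinj : InjOn (fun y : Realization K => Function.support y.1) T := by
    rintro _ ⟨σ, rfl⟩ _ ⟨τ, rfl⟩ h
    have h1 : σ = τ := Subtype.ext (by rw [← hc σ, ← hc τ]; exact h)
    rw [h1]
  have hTinf : T.Infinite := by
    have : Infinite A := Set.infinite_coe_iff.2 hinf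
    refine infinite_range_of_injective fun σ τ h => Subtype.ext ?_
    rw [← hc σ, ← hc τ]
    exact congrArg (fun y : Realization K => Function.support y.1) h
  have hcl : ∀ T' ⊆ T, IsClosed T' := by
    intro T' hT'
    refine isClosed_iSup_iff.2 fun s => isClosed_coinduced.2 (Set.Finite.isClosed ?_)
    refine Set.Finite.of_finite_image (f := fun w => Function.support (faceMap K s w).1)
      ((s.1.finite_toSet.powerset).subset ?_) ?_
    · rintro _ ⟨w, -, rfl⟩ v hv
      by_contra h
      exact hv (w.2.2.1 v h)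
    · intro w hw w' hw' h
      have h1 := hinj (hT' hw) (hT' hw') h
      exact Subtype.ext (congrArg (fun y : Realization K => y.1) h1)
  obtain ⟨y, -, hy⟩ := hTinf.exists_accPt_of_subset_isCompact (isCompact_range hf)
    (by rintro _ ⟨σ, rfl⟩; exact ⟨_, rfl⟩)
  rw [accPt_principal_iff_clusterPt] at hy
  have h1 := (hcl (T \ {y}) sdiff_subset).closure_subset (mem_closure_iff_clusterPt.2 hy)
  exact h1.2 rfl

theorem exists_fin {Y : Type} [TopologicalSpace Y] [CompactSpace Y] {V : Type}
    {K : PreAbstractSimplicialComplex V} {m : ℕ} (hK : ∀ s ∈ K.faces, s.card ≤ m)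
    {f : Y → Realization K} (hf : Continuous f) :
    ∃ (S : Type) (_ : Fintype S) (g : Y → S → ℝ), Continuous g ∧ (∀ x, Low m (g x)) ∧
      ∀ x y, g x = g y → f x = f y := by
  classical
  have h1 : (⋃ σ ∈ range fun x => Function.support (f x).1, σ).Finite := by
    refine (finite_supp hf).biUnion ?_
    rintro _ ⟨x, rfl⟩
    obtain ⟨s, -, hs⟩ := (f x).2
    refine s.finite_toSet.subset fun v hv => ?_
    by_contra h
    exact hv (hs.2.1 v h)
  set S := h1.toFinset with hS
  have h2 : ∀ x v, v ∉ S → (f x).1 v = 0 := by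
    intro x v hv
    by_contra h
    exact hv (h1.mem_toFinset.2 (mem_biUnion ⟨x, rfl⟩ h))
  refine ⟨S, inferInstance, fun x v => (f x).1 v,
    continuous_pi fun v => (coord_cont K v).comp hf, fun x => ?_, fun x y h => ?_⟩
  · obtain ⟨s, hsK, hs⟩ := (f x).2
    refine ⟨s.subtype (· ∈ S), ?_, fun v hv => hs.2.1 _ (by simpa using hv), ?_⟩
    · rw [Finset.card_subtype]
      exact (Finset.card_filter_le _ _).trans (hK s hsK)
    · rw [Finset.sum_subtype_eq_sum_filter (f := fun v => (f x).1 v), Finset.sum_filter_of_ne,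
        hs.2.2]
      intro v _ hv
      by_contra h
      exact hv (h2 x v h)
  · refine Subtype.ext (funext fun v => ?_)
    by_cases hv : v ∈ S
    · exact congrFun h ⟨v, hv⟩
    · rw [h2 x v hv, h2 y v hv]

/-- The image of the low simplices under a smooth map has dense complement. -/
theorem dense_compl_low {S : Type} [Fintype S] {m : ℕ} (hm : 1 ≤ m)
    {P : (S → ℝ) → Fin m → ℝ} (hP : ContDiff ℝ 1 P) : Dense (P '' {w | Low m w})ᶜ := by
  classical
  let q : (s : Finset S) → (v₀ : S) → (↥(s.erase v₀) → ℝ) → S → ℝ := fun s v₀ a v =>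
    if v = v₀ then 1 - ∑ j, a j else if h : v ∈ s.erase v₀ then a ⟨v, h⟩ else 0
  have hq : ∀ s v₀, ContDiff ℝ 1 (q s v₀) := by
    intro s v₀
    refine contDiff_pi.2 fun v => ?_
    simp only [q]
    split_ifs
    · fun_prop
    · fun_prop
    · fun_prop
  refine dense_compl_of_dimH_lt_finrank ?_
  have h1 : P '' {w | Low m w} ⊆
      ⋃ i : {i : Finset S × S // i.2 ∈ i.1 ∧ i.1.card ≤ m}, range (P ∘ q i.1.1 i.1.2) := by
    rintro _ ⟨w, ⟨s, hs, h0, h1⟩, rfl⟩
    obtain ⟨v₀, hv₀⟩ : s.Nonempty := by
      rw [Finset.nonempty_iff_ne_empty]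
      rintro rfl
      simp at h1
    refine mem_iUnion.2 ⟨⟨(s, v₀), hv₀, hs⟩, fun j => w j, congrArg P (funext fun v => ?_)⟩
    simp only [q]
    split_ifs with h h'
    · rw [h, Finset.sum_coe_sort (s.erase v₀) w, ← h1, ← Finset.add_sum_erase s w hv₀]
      ring
    · rfl
    · exact (h0 v fun hv => h' (Finset.mem_erase.2 ⟨h, hv⟩)).symm
  refine (dimH_mono h1).trans_lt ?_
  rw [dimH_iUnion]
  refine lt_of_le_of_lt (b := ((m - 1 : ℕ) : ENNReal)) (iSup_le fun i => ?_) ?_
  · refine ((hP.comp (hq _ _)).dimH_range_le).trans ?_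
    rw [Module.finrank_pi, Fintype.card_coe, Finset.card_erase_of_mem i.2.1]
    exact_mod_cast Nat.sub_le_sub_right i.2.2 1
  · rw [Module.finrank_pi, Fintype.card_fin]
    exact_mod_cast (by omega : m - 1 < m)

/-- A map to `ℝ^m` that factors through simplices with at most `m` vertices can be pushed off
the origin. -/
theorem miss {Y : Type} [TopologicalSpace Y] [CompactSpace Y] {S : Type} [Fintype S] {m : ℕ}
    (hm : 1 ≤ m) {g : Y → S → ℝ} (hg : Continuous g) (hl : ∀ x, Low m (g x))
    {u : Y → Fin m → ℝ} (hu : Continuous u) (hf : ∀ x y, g x = g y → u x = u y) {ε : ℝ}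
    (hε : 0 < ε) : ∃ u' : Y → Fin m → ℝ, Continuous u' ∧ (∀ x, dist (u' x) (u x) < ε) ∧
      ∀ x, u' x ≠ 0 := by
  have hc : Continuous (rangeFactorization g) := hg.subtype_mk _
  have hQ : IsQuotientMap (rangeFactorization g) :=
    hc.isClosedMap.isQuotientMap hc rangeFactorization_surjective
  let G : range g → Fin m → ℝ := fun a => u a.2.choose
  have hG : ∀ x, G (rangeFactorization g x) = u x := fun x =>
    hf _ _ (rangeFactorization g x).2.choose_spec
  have hGc : Continuous G := hQ.continuous_iff.2 (hu.congr fun x => (hG x).symm)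
  obtain ⟨G', hG'⟩ := ContinuousMap.exists_restrict_eq (isCompact_range hg).isClosed ⟨G, hGc⟩
  obtain ⟨P, hP, hPd, -⟩ := G'.continuous.exists_contDiff_approx (ε := fun _ => ε / 2) 1
    continuous_const (fun _ => half_pos hε)
  obtain ⟨y, hy1, hy2⟩ := (dense_compl_low hm hP).exists_mem_open isOpen_ball
    ⟨0, mem_ball_self (half_pos hε)⟩
  refine ⟨fun x => P (g x) - y, (hP.continuous.comp hg).sub continuous_const, fun x => ?_,
    fun x h => hy1 ⟨g x, hl x, sub_eq_zero.1 h⟩⟩
  have h1 : G' (g x) = u x := by
    rw [← hG x]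
    exact DFunLike.congr_fun hG' (rangeFactorization g x)
  have h2 := hPd (g x)
  rw [h1, dist_eq_norm] at h2
  rw [mem_ball_zero_iff] at hy2
  rw [dist_eq_norm, sub_right_comm]
  linarith [norm_sub_le (P (g x) - u x) y]

/-- A map from the `m`-cube to simplices with at most `m` vertices identifies two points on
opposite faces. -/
theorem cube {S : Type} [Fintype S] {m : ℕ} (hm : 1 ≤ m) {g : (Fin m → unitInterval) → S → ℝ}
    (hg : Continuous g) (hl : ∀ x, Low m (g x)) :
    ∃ i x y, x i = 0 ∧ y i = 1 ∧ g x = g y := by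
  by_contra hcon
  push Not at hcon
  have hcl : ∀ (i : Fin m) (c : unitInterval), IsClosed (g '' {x | x i = c}) := fun i c =>
    (((isClosed_eq (continuous_apply i) continuous_const).isCompact).image hg).isClosed
  have hU : ∀ i : Fin m, ∃ h : C(S → ℝ, ℝ), EqOn h 0 (g '' {x | x i = 0}) ∧
      EqOn h 1 (g '' {x | x i = 1}) ∧ ∀ x, h x ∈ Icc (0 : ℝ) 1 := fun i =>
    exists_continuous_zero_one_of_isClosed (hcl i 0) (hcl i 1) (by
      rw [Set.disjoint_left]
      rintro _ ⟨x, hx, rfl⟩ ⟨y, hy, h⟩
      exact hcon i x y hx hy h.symm)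
  choose h h0 h1 _ using hU
  let u : (Fin m → unitInterval) → Fin m → ℝ := fun x i => 2 * h i (g x) - 1
  have hu : Continuous u := continuous_pi fun i =>
    (continuous_const.mul ((h i).continuous.comp hg)).sub continuous_const
  obtain ⟨u', hu', hd, hne⟩ := miss hm hg hl hu (fun x y hxy => by simp only [u, hxy]) one_pos
  let r : (Fin m → ℝ) → Fin m → unitInterval := fun z i =>
    projIcc 0 1 zero_le_one ((z i + 1) / 2)
  have hr : Continuous r := continuous_pi fun i => continuous_projIcc.comp
    (((continuous_apply i).add continuous_const).div_const 2)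
  obtain ⟨z, -, hz⟩ := P264Z.exists_zero_of_sphere (r := 1) one_pos (f := fun z => u' (r z))
    (hu'.comp hr).continuousOn (by
      intro z hz t ht hzero
      obtain ⟨i, hi⟩ : ∃ i, ‖z i‖ = 1 := by
        by_contra hc
        push Not at hc
        have h2 : ‖z‖ < 1 := (pi_norm_lt_iff one_pos).2 fun i =>
          lt_of_le_of_ne (hz ▸ norm_le_pi_norm z i) (hc i)
        exact h2.ne hz
      have h2 : (1 - t) * z i + t * u' (r z) i = 0 := congrFun hzero i
      have h3 := (dist_le_pi_dist (u' (r z)) (u (r z)) i).trans_lt (hd _)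
      rw [Real.dist_eq, abs_lt] at h3
      rw [Real.norm_eq_abs, abs_eq zero_le_one] at hi
      rcases hi with hi | hi
      · have h4 : r z i = 1 := by
          simp only [r, hi]
          norm_num
        have h5 : u (r z) i = 1 := by
          have := h1 i ⟨r z, h4, rfl⟩
          simp only [u, this, Pi.one_apply]
          norm_num
        rw [hi] at h2
        rw [h5] at h3
        nlinarith [ht.1, ht.2, h3.1]
      · have h4 : r z i = 0 := by
          simp only [r, hi]
          norm_num
        have h5 : u (r z) i = -1 := by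
          have := h0 i ⟨r z, h4, rfl⟩
          simp only [u, this, Pi.zero_apply]
          norm_num
        rw [hi] at h2
        rw [h5] at h3
        nlinarith [ht.1, ht.2, h3.2])
  exact hne _ hz

end Vale.Agent.N210
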