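import Vale.Agent.P210.MathlibUsed

/-!
# N210 / Hom : bounded homotopies in uniformly contractible spaces
-/

open Set Topology Metric Filter

namespace Vale.Agent.N210

variable {X : Type} [MetricSpace X]

/-- every ball of radius `r` contracts inside the concentric ball of radius `R` -/
def Contr (X : Type) [MetricSpace X] (r R : ℝ) : Prop :=
  ∀ x : X, ∃ (H : X × ℝ → X) (c : X), ContinuousOn H (closedBall x r ×ˢ univ) ∧ dist c x ≤ R ∧
    ∀ y ∈ closedBall x r, H (y, 0) = y ∧ H (y, 1) = c ∧ ∀ t, dist (H (y, t)) x ≤ R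

theorem glue {Z : Type} [TopologicalSpace Z] {π : Z → X} {M : Z → ℝ} (hM : Continuous M)
    {F : Z → X} {η η' R r ρ : ℝ} (hη : η < η') (hF : ContinuousOn F {z | η ≤ M z})
    (hd : ∀ z, η ≤ M z → dist (F z) (π z) ≤ R) {ι : Type} [Finite ι] {P : ι → Set Z}
    (hP : ∀ a, IsClosed (P a)) (hdis : ∀ a b z, z ∈ P a → z ∈ P b → a = b) {q : ι → X}
    (hq : ∀ a, ∀ z ∈ P a, dist (π z) (q a) ≤ r) (hC : Contr X (R + r) ρ) {rel : Z → Z → Prop}
    (relM : ∀ z z', rel z z' → M z = M z') (relP : ∀ z z' a, rel z z' → z ∈ P a → z' ∈ P a)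
    (relF : ∀ z z', rel z z' → η ≤ M z → F z = F z') :
    ∃ F' : Z → X, ContinuousOn F' ({z | η' ≤ M z} ∪ ⋃ a, P a) ∧
      (∀ z ∈ {z | η' ≤ M z} ∪ ⋃ a, P a, dist (F' z) (π z) ≤ max R (ρ + r)) ∧
      (∀ z, η' ≤ M z → F' z = F z) ∧
      ∀ z z', rel z z' → z ∈ {z | η' ≤ M z} ∪ ⋃ a, P a → F' z = F' z' := by
  classical
  choose H c hH hc hH' using hC
  have hball : ∀ a, ∀ z ∈ P a, η ≤ M z → F z ∈ closedBall (q a) (R + r) := fun a z hz h =>
    (dist_triangle _ (π z) _).trans (add_le_add (hd z h) (hq a z hz))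
  let F' : Z → X := fun z => if η' ≤ M z then F z else if h : ∃ a, z ∈ P a then
    (if η ≤ M z then H (q h.choose) (F z, (η' - M z) / (η' - η)) else c (q h.choose)) else F z
  have e0 : ∀ z, η' ≤ M z → F' z = F z := fun z h => if_pos h
  have e3 : ∀ a, ∀ z ∈ P a, ¬ η' ≤ M z → F' z =
      if η ≤ M z then H (q a) (F z, (η' - M z) / (η' - η)) else c (q a) := by
    intro a z hz h
    have h1 : ∃ a, z ∈ P a := ⟨a, hz⟩
    simp only [F']
    rw [if_neg h, dif_pos h1, hdis _ _ z h1.choose_spec hz]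
  have e1 : ∀ a, ∀ z ∈ P a, η ≤ M z → M z ≤ η' →
      F' z = H (q a) (F z, (η' - M z) / (η' - η)) := by
    intro a z hz h1 h2
    by_cases h : η' ≤ M z
    · rw [e0 z h, le_antisymm h2 h, sub_self, zero_div, (hH' _ _ (hball a z hz h1)).1]
    · rw [e3 a z hz h, if_pos h1]
  have e2 : ∀ a, ∀ z ∈ P a, M z ≤ η → F' z = c (q a) := by
    intro a z hz h1
    rw [e3 a z hz (by linarith)]
    split_ifs with h
    · rw [le_antisymm h1 h, div_self (by linarith), (hH' _ _ (hball a z hz h)).2.1]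
    · rfl
  refine ⟨F', ?_, ?_, e0, ?_⟩
  · have h1 : {z | η' ≤ M z} ∪ ⋃ a, P a ⊆ {z | η' ≤ M z} ∪
        ((⋃ a, P a ∩ ({z | η ≤ M z} ∩ {z | M z ≤ η'})) ∪ ⋃ a, P a ∩ {z | M z ≤ η}) := by
      rintro z (h | h)
      · exact Or.inl h
      obtain ⟨a, ha⟩ := mem_iUnion.1 h
      by_cases h2 : η' ≤ M z
      · exact Or.inl h2
      by_cases h3 : η ≤ M z
      · exact Or.inr (Or.inl (mem_iUnion.2 ⟨a, ha, h3, (not_le.1 h2).le⟩))
      · exact Or.inr (Or.inr (mem_iUnion.2 ⟨a, ha, (not_le.1 h3).le⟩))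
    have c1 : ∀ a, IsClosed (P a ∩ ({z | η ≤ M z} ∩ {z | M z ≤ η'})) := fun a =>
      (hP a).inter ((isClosed_le continuous_const hM).inter (isClosed_le hM continuous_const))
    have c2 : ∀ a, IsClosed (P a ∩ {z | M z ≤ η}) := fun a =>
      (hP a).inter (isClosed_le hM continuous_const)
    refine ContinuousOn.mono (ContinuousOn.union_of_isClosed ?_
      (ContinuousOn.union_of_isClosed ?_ ?_ (isClosed_iUnion_of_finite c1)
        (isClosed_iUnion_of_finite c2)) (isClosed_le continuous_const hM)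
      ((isClosed_iUnion_of_finite c1).union (isClosed_iUnion_of_finite c2))) h1
    · exact (hF.mono fun z hz => le_trans hη.le hz).congr e0
    · refine (locallyFinite_of_finite _).continuousOn_iUnion c1 fun a => ?_
      refine ContinuousOn.congr (f := fun z => H (q a) (F z, (η' - M z) / (η' - η))) ?_
        fun z hz => e1 a z hz.1 hz.2.1 hz.2.2
      exact (hH (q a)).comp ((hF.mono fun z hz => hz.2.1).prodMk
        ((continuous_const.sub hM).div_const _).continuousOn)
        fun z hz => ⟨hball a z hz.1 hz.2.1, mem_univ _⟩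
    · refine (locallyFinite_of_finite _).continuousOn_iUnion c2 fun a => ?_
      exact continuousOn_const.congr fun z hz => e2 a z hz.1 hz.2
  · intro z hz
    by_cases h2 : η' ≤ M z
    · rw [e0 z h2]
      exact (hd z (hη.le.trans h2)).trans (le_max_left _ _)
    obtain ⟨a, ha⟩ := mem_iUnion.1 (hz.resolve_left h2)
    refine le_trans ((dist_triangle_right _ _ (q a)).trans (add_le_add ?_ (hq a z ha)))
      (le_max_right _ _)
    rw [e3 a z ha h2]
    split_ifs with h
    · exact (hH' _ _ (hball a z ha h)).2.2 _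
    · exact hc _
  · intro z z' h hz
    have h1 := relM z z' h
    by_cases h2 : η' ≤ M z
    · rw [e0 z h2, e0 z' (h1 ▸ h2), relF z z' h (hη.le.trans h2)]
    obtain ⟨a, ha⟩ := mem_iUnion.1 (hz.resolve_left h2)
    rw [e3 a z ha h2, e3 a z' (relP z z' a h ha) (h1 ▸ h2), ← h1]
    split_ifs with h3
    · rw [relF z z' h h3]
    · rfl

/-- the walls of colour `j` -/
def wall (S : Type) (m j : ℕ) : Set (S → ℝ) :=
  {w | ∃ (v : S) (k : ℤ), w v = 2 * m * k + (2 * j + 1)}

/-- the boxes of colour `j` -/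
def box {S : Type} (m j : ℕ) (η : ℝ) (k : S → ℤ) : Set (S → ℝ) :=
  {w | ∀ v, 2 * m * k v + (2 * j + 1) + η ≤ w v ∧ w v ≤ 2 * m * (k v + 1) + (2 * j + 1) - η}

section grid

variable {S : Type} [Fintype S] {m j : ℕ} {η : ℝ}

omit [Fintype S] in
theorem box_closed (k : S → ℤ) : IsClosed (box m j η k) := by
  simp only [box, ofPred_forall]
  exact isClosed_iInter fun v => (isClosed_le continuous_const (continuous_apply v)).inter
    (isClosed_le (continuous_apply v) continuous_const)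

omit [Fintype S] in
theorem box_unique (hm : 1 ≤ m) (hη : 0 < η) {k k' : S → ℤ} {w : S → ℝ} (h : w ∈ box m j η k)
    (h' : w ∈ box m j η k') : k = k' := by
  have hm' : (1 : ℝ) ≤ m := by exact_mod_cast hm
  funext v
  obtain ⟨h1, h2⟩ := h v
  obtain ⟨h3, h4⟩ := h' v
  have h5 : (k v : ℝ) < k' v + 1 := by
    by_contra hc
    nlinarith [not_lt.1 hc]
  have h6 : (k' v : ℝ) < k v + 1 := by
    by_contra hc
    nlinarith [not_lt.1 hc]
  have h7 : k v < k' v + 1 := by exact_mod_cast h5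
  have h8 : k' v < k v + 1 := by exact_mod_cast h6
  omega

theorem box_dist (hη : 0 < η) {k : S → ℤ} {w w' : S → ℝ} (h : w ∈ box m j η k)
    (h' : w' ∈ box m j η k) : dist w w' ≤ 2 * m := by
  refine (dist_pi_le_iff (by positivity)).2 fun v => ?_
  obtain ⟨h1, h2⟩ := h v
  obtain ⟨h3, h4⟩ := h' v
  rw [Real.dist_eq, abs_le]
  constructor <;> linarith

theorem mem_box (hm : 1 ≤ m) {w : S → ℝ} (h : η ≤ infDist w (wall S m j)) :
    ∃ k, w ∈ box m j η k := by
  classical
  have hm' : (0 : ℝ) < 2 * m := by positivity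
  have h1 : ∀ (v : S) (k : ℤ), η ≤ |w v - (2 * m * k + (2 * j + 1))| := by
    intro v k
    have h0 : Function.update w v (2 * m * k + (2 * j + 1)) ∈ wall S m j :=
      ⟨v, k, Function.update_self _ _ _⟩
    refine h.trans ((infDist_le_dist_of_mem h0).trans ?_)
    refine (dist_pi_le_iff (abs_nonneg _)).2 fun v' => ?_
    by_cases hv : v' = v
    · rw [hv, Function.update_self, Real.dist_eq]
    · rw [Function.update_of_ne hv, dist_self]
      exact abs_nonneg _
  refine ⟨fun v => ⌊(w v - (2 * j + 1)) / (2 * m)⌋, fun v => ?_⟩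
  set k := ⌊(w v - (2 * j + 1)) / (2 * m)⌋ with hk
  have h2 : (k : ℝ) ≤ (w v - (2 * j + 1)) / (2 * m) := Int.floor_le _
  have h3 : (w v - (2 * j + 1)) / (2 * m) < k + 1 := Int.lt_floor_add_one _
  rw [le_div_iff₀ hm'] at h2
  rw [div_lt_iff₀ hm'] at h3
  have h4 := h1 v k
  have h5 := h1 v (k + 1)
  rw [abs_of_nonneg (by linarith)] at h4
  push_cast at h5
  rw [abs_of_nonpos (by linarith)] at h5
  constructor <;> linarith

theorem finite_box (hm : 1 ≤ m) (hj : j < m) (hη : 0 < η) {A : Set (S → ℝ)}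
    (hA : Bornology.IsBounded A) : {k : S → ℤ | ∃ w ∈ A, w ∈ box m j η k}.Finite := by
  obtain ⟨L, hL⟩ := hA.exists_norm_le
  obtain ⟨N, hN⟩ := exists_nat_ge L
  have hm' : (1 : ℝ) ≤ m := by exact_mod_cast hm
  have hj' : (j : ℝ) + 1 ≤ m := by exact_mod_cast hj
  have hj0 : (0 : ℝ) ≤ j := Nat.cast_nonneg _
  have hN0 : (0 : ℝ) ≤ N := Nat.cast_nonneg _
  refine (Set.Finite.pi' fun _ : S => finite_Icc (-(N : ℤ) - 2) N).subset ?_
  rintro k ⟨w, hw, hk⟩ v
  obtain ⟨h1, h2⟩ := hk v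
  have h3 := abs_le.1 (((norm_le_pi_norm w v).trans (hL w hw)).trans hN)
  have h4 : -(N : ℝ) - 2 ≤ k v := by
    by_contra hc
    nlinarith [not_le.1 hc, h3.1]
  have h5 : (k v : ℝ) ≤ N := by
    by_contra hc
    nlinarith [not_le.1 hc, h3.2]
  exact ⟨by exact_mod_cast h4, by exact_mod_cast h5⟩

theorem exists_colour [Nonempty S] {w : S → ℝ} {s : Finset S} (hs : s.card < m)
    (hw : ∀ v ∉ s, w v = 0) : ∃ j < m, 1 ≤ infDist w (wall S m j) := by
  classical
  by_contra hcon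
  push Not at hcon
  have h1 : ∀ j : Fin m, ∃ (v : S) (k : ℤ), |w v - (2 * m * k + (2 * (j : ℕ) + 1))| < 1 := by
    intro j
    obtain ⟨w', ⟨v, k, h⟩, h'⟩ := (infDist_lt_iff (s := wall S m j)
      ⟨fun _ => 2 * m * (0 : ℤ) + (2 * (j : ℕ) + 1), Classical.arbitrary S, 0, rfl⟩).1
      (hcon j j.2)
    exact ⟨v, k, by rw [← h, ← Real.dist_eq]; exact (dist_le_pi_dist w w' v).trans_lt h'⟩
  choose v k h using h1
  have h2 : ∀ j, v j ∈ s := by
    intro j
    by_contra hc
    have h3 := h j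
    rw [hw _ hc, zero_sub, abs_neg] at h3
    have h4 : |2 * (m : ℤ) * k j + (2 * (j : ℕ) + 1)| < 1 := by exact_mod_cast h3
    rw [Int.abs_lt_one_iff, mul_assoc] at h4
    omega
  have h3 : Function.Injective v := by
    intro j j' hv
    have h4 := abs_lt.1 (h j)
    have h5 := abs_lt.1 (h j')
    rw [hv] at h4
    have h6 : ((m : ℝ) * k j + (j : ℕ)) < m * k j' + (j' : ℕ) + 1 := by linarith
    have h7 : ((m : ℝ) * k j' + (j' : ℕ)) < m * k j + (j : ℕ) + 1 := by linarith
    have h8 : (m : ℤ) * k j + (j : ℕ) < m * k j' + (j' : ℕ) + 1 := by exact_mod_cast h6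
    have h9 : (m : ℤ) * k j' + (j' : ℕ) < m * k j + (j : ℕ) + 1 := by exact_mod_cast h7
    have h10 : ((j : ℕ) : ℤ) + m * k j = (j' : ℕ) + m * k j' := by omega
    have h11 := congrArg (· % (m : ℤ)) h10
    simp only [Int.add_mul_emod_self_left] at h11
    rw [Int.emod_eq_of_lt (by positivity) (by exact_mod_cast j.2),
      Int.emod_eq_of_lt (by positivity) (by exact_mod_cast j'.2)] at h11
    exact Fin.ext (by exact_mod_cast h11)
  have h4 := Finset.card_le_card_of_injOn (s := Finset.univ) v (fun j _ => h2 j) h3.injOn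
  rw [Finset.card_univ, Fintype.card_fin] at h4
  omega

end grid

/-- the weights -/
noncomputable def wt {S : Type} [Fintype S] (m : ℕ) : ℕ → (S → ℝ) × ℝ → ℝ
  | 0 => fun z => 1 - z.2
  | j + 1 => fun z => max (wt m j z) (infDist z.1 (wall S m j))

theorem wt_cont {S : Type} [Fintype S] (m j : ℕ) : Continuous (wt (S := S) m j) := by
  induction j with
  | zero => exact continuous_const.sub continuous_snd
  | succ j ih => exact ih.max ((continuous_infDist_pt _).comp continuous_fst)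

theorem wt_mono {S : Type} [Fintype S] (m : ℕ) (z : (S → ℝ) × ℝ) : Monotone fun j => wt m j z :=
  monotone_nat_of_le_succ fun _ => le_max_left _ _

/-- In a uniformly contractible space, a map from a compact space is homotopic, by a bounded
homotopy, to a map that factors through a given map with small fibres and few coordinates. -/
theorem exists_hom (hX : ∀ r, ∃ R, Contr X r R) {m : ℕ} (hm : 1 ≤ m) (r : ℝ) :
    ∃ R : ℝ, ∀ (Y : Type) [TopologicalSpace Y] [CompactSpace Y] (π : Y → X) (S : Type)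
      [Fintype S] [Nonempty S] (G : Y → S → ℝ), Continuous π → Continuous G →
      (∀ y, ∃ s : Finset S, s.card < m ∧ ∀ v ∉ s, G y v = 0) →
      (∀ y y', dist (G y) (G y') ≤ 2 * m → dist (π y) (π y') ≤ r) →
      ∃ F : Y × ℝ → X, Continuous F ∧ (∀ z, dist (F z) (π z.1) ≤ R) ∧ (∀ y, F (y, 0) = π y) ∧
        ∀ y y', G y = G y' → F (y, 1) = F (y', 1) := by
  have hm0 : (0 : ℝ) < m + 1 := by positivity
  have key : ∀ j ≤ m, ∃ R : ℝ, ∀ (Y : Type) [TopologicalSpace Y] [CompactSpace Y] (π : Y → X)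
      (S : Type) [Fintype S] (G : Y → S → ℝ), Continuous π → Continuous G →
      (∀ y y', dist (G y) (G y') ≤ 2 * m → dist (π y) (π y') ≤ r) →
      ∃ F : Y × ℝ → X, ContinuousOn F {z | ((j : ℝ) + 1) / (m + 1) ≤ wt m j (G z.1, z.2)} ∧
        (∀ z : Y × ℝ, ((j : ℝ) + 1) / (m + 1) ≤ wt m j (G z.1, z.2) → dist (F z) (π z.1) ≤ R) ∧
        (∀ y, F (y, 0) = π y) ∧ ∀ z z' : Y × ℝ, z.2 = 1 ∧ z'.2 = 1 ∧ G z.1 = G z'.1 →
          ((j : ℝ) + 1) / (m + 1) ≤ wt m j (G z.1, z.2) → F z = F z' := by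
    intro j
    induction j with
    | zero =>
      refine fun _ => ⟨0, fun Y _ _ π S _ G hπ _ _ => ⟨fun z => π z.1,
        (hπ.comp continuous_fst).continuousOn, fun z _ => (dist_self _).le, fun _ => rfl,
        fun z z' h h' => ?_⟩⟩
      simp only [wt, h.1, sub_self] at h'
      exact absurd h' (not_le.2 (by positivity))
    | succ j ih =>
      intro hj
      obtain ⟨R, hR⟩ := ih (by omega)
      obtain ⟨ρ, hρ⟩ := hX (R + r)
      refine ⟨max R (ρ + r), fun Y _ _ π S _ G hπ hG hd => ?_⟩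
      obtain ⟨F, h1, h2, h3, h4⟩ := hR Y π S G hπ hG hd
      set η : ℝ := (((j + 1 : ℕ) : ℝ) + 1) / (m + 1) with hη
      have hη0 : 0 < η := by positivity
      have hη1 : η ≤ 1 := div_le_one_of_le₀ (by exact_mod_cast Nat.succ_le_succ hj) hm0.le
      let ι := {k : S → ℤ | ∃ w ∈ range G, w ∈ box m j η k}
      have : Finite ι := (finite_box hm (by omega) hη0 (isCompact_range hG).isBounded).to_subtype
      have hq : ∀ k : ι, ∃ y, G y ∈ box m j η k.1 := by
        rintro ⟨k, _, ⟨y, rfl⟩, h⟩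
        exact ⟨y, h⟩
      choose q hq using hq
      obtain ⟨F', g1, g2, g3, g4⟩ := glue (Z := Y × ℝ) (π := fun z => π z.1)
        (M := fun z => wt m j (G z.1, z.2))
        ((wt_cont m j).comp ((hG.comp continuous_fst).prodMk continuous_snd)) (η' := η)
        (by rw [hη]; push_cast; exact div_lt_div_of_pos_right (by linarith) hm0) h1 h2
        (P := fun k : ι => {z | G z.1 ∈ box m j η k.1})
        (fun k => (box_closed k.1).preimage (hG.comp continuous_fst))
        (fun a b z ha hb => Subtype.ext (box_unique hm hη0 ha hb)) (q := fun k => π (q k))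
        (fun k z hz => hd _ _ (box_dist hη0 hz (hq k))) hρ
        (rel := fun z z' => z.2 = 1 ∧ z'.2 = 1 ∧ G z.1 = G z'.1)
        (fun z z' h => by rw [h.1, h.2.1, h.2.2])
        (fun z z' a h ha => by rw [mem_ofPred_eq, ← h.2.2]; exact ha) h4
      have hsub : ∀ z : Y × ℝ, η ≤ wt m (j + 1) (G z.1, z.2) →
          z ∈ {z : Y × ℝ | η ≤ wt m j (G z.1, z.2)} ∪
            ⋃ k : ι, {z : Y × ℝ | G z.1 ∈ box m j η k.1} := by
        intro z hz
        rcases le_max_iff.1 hz with h | h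
        · exact Or.inl h
        · obtain ⟨k, hk⟩ := mem_box hm h
          exact Or.inr (mem_iUnion.2 ⟨⟨k, _, ⟨z.1, rfl⟩, hk⟩, hk⟩)
      refine ⟨F', g1.mono hsub, fun z hz => g2 z (hsub z hz), fun y => ?_,
        fun z z' h hz => g4 z z' h (hsub z hz)⟩
      rw [g3 (y, 0) (hη1.trans (le_trans (by simp [wt]) (wt_mono m _ (Nat.zero_le j)))), h3]
  obtain ⟨R, hR⟩ := key m le_rfl
  refine ⟨R, fun Y _ _ π S _ _ G hπ hG hs hd => ?_⟩
  obtain ⟨F, h1, h2, h3, h4⟩ := hR Y π S G hπ hG hd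
  have h5 : ∀ z : Y × ℝ, ((m : ℝ) + 1) / (m + 1) ≤ wt m m (G z.1, z.2) := by
    intro z
    obtain ⟨s, hs1, hs2⟩ := hs z.1
    obtain ⟨j, hj, h⟩ := exists_colour hs1 hs2
    rw [div_self hm0.ne']
    exact h.trans (le_trans (le_max_right _ _) (wt_mono m (G z.1, z.2) hj))
  exact ⟨F, continuousOn_univ.1 (h1.mono fun z _ => h5 z), fun z => h2 z (h5 z), h3,
    fun y y' h => h4 (y, 1) (y', 1) ⟨rfl, rfl, h⟩ (h5 _)⟩

end Vale.Agent.N210
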