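import Vale.Agent.N210.Top
import Vale.Agent.P216.H494.CovDef
import Mathlib.Topology.Homotopy.Lifting
import Mathlib.Geometry.Manifold.Metrizable

/-!
# N210 / Lift : maps of aspherical manifolds that are injective on the fundamental group
-/

open Set Topology Metric Filter
open scoped ContDiff Manifold

namespace Vale.Agent.N210

open Vale.Agent.P210 Vale.Agent.P216.H494

section cover

variable {X A : Type} [TopologicalSpace X] [TopologicalSpace A] {q : X → A}

theorem surj_of_covering (hq : IsCoveringMap q) [Nonempty X] [PreconnectedSpace A] :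
    Function.Surjective q := by
  rw [← range_eq_univ]
  refine IsClopen.eq_univ ⟨?_, hq.isOpenMap.isOpen_range⟩ (range_nonempty q)
  refine isClosed_of_closure_subset fun a ha => ?_
  obtain ⟨-, U, haU, hU, -, H, -⟩ := hq a
  obtain ⟨_, hb, x, rfl⟩ := mem_closure_iff.1 ha U hU haU
  exact ⟨_, (H ⟨x, hb⟩).2.2⟩

theorem pull_covering (hq : IsCoveringMap q) {N : Type} [TopologicalSpace N] (ψ : C(N, A)) :
    IsCoveringMap fun z : {z : N × X // ψ z.1 = q z.2} => z.1.1 := by
  intro m
  obtain ⟨hd, U, hU, hUo, -, H, hH⟩ := hq (ψ m)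
  have hV := hUo.preimage ψ.continuous
  refine IsEvenlyCovered.to_isEvenlyCovered_preimage (I := q ⁻¹' {ψ m})
    ⟨hd, ψ ⁻¹' U, hU, hV, hV.preimage (by fun_prop),
    { toFun := fun z => (⟨z.1.1.1, z.2⟩, (H ⟨z.1.1.2, mem_preimage.2 (z.1.2 ▸ z.2)⟩).2)
      invFun := fun w => ⟨⟨(w.1, H.symm (⟨ψ w.1, w.1.2⟩, w.2)), by
        rw [← hH, Homeomorph.apply_symm_apply]⟩, w.1.2⟩
      left_inv := fun z => Subtype.ext (Subtype.ext (Prod.ext rfl ?_))
      right_inv := fun w => Prod.ext rfl ?_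
      continuous_toFun := by fun_prop
      continuous_invFun := by fun_prop }, fun _ => rfl⟩
  · have h1 : H ⟨z.1.1.2, mem_preimage.2 (z.1.2 ▸ z.2)⟩ =
        (⟨ψ z.1.1.1, z.2⟩, (H ⟨z.1.1.2, mem_preimage.2 (z.1.2 ▸ z.2)⟩).2) :=
      Prod.ext (Subtype.ext ((hH _).trans z.1.2.symm)) rfl
    dsimp only
    rw [← h1, Homeomorph.symm_apply_apply]
  · have h1 := congrArg Prod.snd (H.apply_symm_apply (⟨ψ w.1, w.1.2⟩, w.2))
    exact h1

theorem t2_of_covering (hq : IsCoveringMap q) [T2Space A] : T2Space X := by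
  refine ⟨fun e e' hne => ?_⟩
  by_cases h1 : q e = q e'
  · exact hq.isSeparatedMap e e' h1 hne
  · obtain ⟨u, v, hu, hv, hxu, hxv, huv⟩ := t2_separation h1
    exact ⟨q ⁻¹' u, q ⁻¹' v, hu.preimage hq.continuous, hv.preimage hq.continuous, hxu, hxv,
      huv.preimage _⟩

theorem exists_deck (hq : IsCoveringMap q) [SimplyConnectedSpace X] [LocallyPathConnectedSpace X]
    {x y : X} (h : q x = q y) : ∃ γ : X → X, Continuous γ ∧ q ∘ γ = q ∧ γ x = y := by
  obtain ⟨F, ⟨h1, h2⟩, -⟩ := hq.existsUnique_continuousMap_lifts ⟨q, hq.continuous⟩ x y h.symm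
  exact ⟨F, F.continuous, h2, h1⟩

variable {N W : Type} [TopologicalSpace N] [TopologicalSpace W] {p : W → N} {ψ : C(A, N)}
  {φ : X → W}

theorem deck_comm (hp : IsCoveringMap p) [SimplyConnectedSpace W] [LocallyPathConnectedSpace W]
    [PreconnectedSpace X] (hφ : Continuous φ) (hl : p ∘ φ = ψ ∘ q) {γ : X → X}
    (hγ : Continuous γ) (hq : q ∘ γ = q) (x : X) :
    ∃ δ : W → W, Continuous δ ∧ p ∘ δ = p ∧ φ ∘ γ = δ ∘ φ := by
  have h1 : p ∘ φ ∘ γ = p ∘ φ := by
    rw [← Function.comp_assoc, hl, Function.comp_assoc, hq]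
  obtain ⟨δ, h2, h3, h4⟩ := exists_deck hp (congrFun h1 x).symm
  exact ⟨δ, h2, h3, hp.eq_of_comp_eq (hφ.comp hγ) (h2.comp hφ)
    (by rw [h1, ← Function.comp_assoc, h3]) x h4.symm⟩

theorem fibre_inj (hq : IsCoveringMap q) (hp : IsCoveringMap p) [SimplyConnectedSpace W]
    [PathConnectedSpace X] (hφ : Continuous φ) (hl : p ∘ φ = ψ ∘ q) {x y : X}
    (hψ : Function.Injective (FundamentalGroup.map ψ (q x))) (h1 : q x = q y) (h2 : φ x = φ y) :
    x = y := by
  let β : Path x y := PathConnectedSpace.somePath x y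
  let l : Path (q x) (q x) := (β.map hq.continuous).cast rfl h1
  let l' : Path (φ x) (φ x) := (β.map hφ).cast rfl h2
  have h3 : (l.map ψ.continuous).Homotopic (Path.refl _) := by
    have h4 := ContinuousMap.HomotopicRel.comp_continuousMap
      (SimplyConnectedSpace.paths_homotopic l' (Path.refl _)) ⟨p, hp.continuous⟩
    have e1 : (ContinuousMap.comp ⟨p, hp.continuous⟩ l'.toContinuousMap) =
        (l.map ψ.continuous).toContinuousMap := ContinuousMap.ext fun t => congrFun hl (β t)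
    have e2 : (ContinuousMap.comp ⟨p, hp.continuous⟩ (Path.refl (φ x)).toContinuousMap) =
        (Path.refl (ψ (q x))).toContinuousMap := ContinuousMap.ext fun _ => congrFun hl x
    rwa [e1, e2] at h4
  have h4 : l.Homotopic (Path.refl _) := by
    have h5 : FundamentalGroup.map ψ (q x) (Path.Homotopic.Quotient.mk l) =
        FundamentalGroup.map ψ (q x) 1 := by
      rw [map_one]
      exact Path.Homotopic.Quotient.eq.2 h3
    exact Path.Homotopic.Quotient.eq.1 (hψ h5)
  have h5 := hq.liftPath_apply_one_eq_of_homotopicRel h4 x l.source rfl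
  have h6 : β.toContinuousMap = hq.liftPath l.toContinuousMap x l.source :=
    (hq.eq_liftPath_iff' _).2 ⟨rfl, β.source⟩
  have h7 : hq.liftPath (Path.refl (q x)).toContinuousMap x rfl = ContinuousMap.const _ x :=
    hq.liftPath_const rfl
  rw [← h6, h7] at h5
  exact (β.target.symm.trans h5).symm

theorem closedEmb (hq : IsCoveringMap q) (hp : IsCoveringMap p) [T2Space N]
    [LocallyConnectedSpace A] (hφ : Continuous φ) (hl : p ∘ φ = ψ ∘ q)
    (hi : Function.Injective fun x => (φ x, q x)) : IsClosedEmbedding fun x => (φ x, q x) := by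
  have hc : Continuous fun x => (φ x, q x) := hφ.prodMk hq.continuous
  refine IsClosedEmbedding.of_continuous_injective_isClosedMap hc hi
    (isProperMap_iff_ultrafilter.2 ⟨hc, ?_⟩).isClosedMap
  rintro 𝒰 ⟨w, a⟩ h
  have t1 : Tendsto φ 𝒰 (𝓝 w) := (continuous_fst.tendsto _).comp h
  have t2 : Tendsto q 𝒰 (𝓝 a) := (continuous_snd.tendsto _).comp h
  have hwa : p w = ψ a := tendsto_nhds_unique ((hp.continuous.tendsto w).comp t1)
    (hl ▸ (ψ.continuous.tendsto a).comp t2)
  obtain ⟨-, U, haU, hU, -, H, hH⟩ := hq a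
  obtain ⟨e, he, hep⟩ := hp.isLocalHomeomorph w
  have hae : ψ a ∈ e.target := by rw [← hwa, hep]; exact e.map_source he
  obtain ⟨U', ⟨hU'o, haU', hU'c⟩, hsub⟩ := (LocallyConnectedSpace.open_connected_basis a).mem_iff.1
    (inter_mem (hU.mem_nhds haU)
      (ψ.continuous.continuousAt.preimage_mem_nhds (e.open_target.mem_nhds hae)))
  have : PreconnectedSpace U' := isPreconnected_iff_preconnectedSpace.1 hU'c.isPreconnected
  let s : q ⁻¹' {a} → U' → X := fun i b => H.symm (⟨b, (hsub b.2).1⟩, i)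
  have hs : ∀ i, Continuous (s i) := fun i => continuous_subtype_val.comp
    (H.symm.continuous.comp ((continuous_subtype_val.subtype_mk _).prodMk continuous_const))
  have hqs : ∀ i b, q (s i b) = b := fun i b => by
    rw [← hH, Homeomorph.apply_symm_apply]
  have key : ∀ x (hx : q x ∈ U'), φ x ∈ e.source →
      ∃ i, s i ⟨q x, hx⟩ = x ∧ (φ (s i ⟨a, haU'⟩), q (s i ⟨a, haU'⟩)) = (w, a) := by
    intro x hx hx'
    have h1 : s (H ⟨x, (hsub hx).1⟩).2 ⟨q x, hx⟩ = x := by
      have h2 : H ⟨x, (hsub hx).1⟩ = (⟨q x, (hsub hx).1⟩, (H ⟨x, (hsub hx).1⟩).2) :=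
        Prod.ext (Subtype.ext (hH _)) rfl
      simp only [s]
      rw [← h2, Homeomorph.symm_apply_apply]
    refine ⟨_, h1, Prod.ext ?_ (hqs _ _)⟩
    have h3 := hp.eq_of_comp_eq (g₁ := fun b : U' => φ (s (H ⟨x, (hsub hx).1⟩).2 b))
      (g₂ := fun b : U' => e.symm (ψ b)) (hφ.comp (hs _))
      (e.continuousOn_symm.comp_continuous (ψ.continuous.comp continuous_subtype_val)
        fun b => (hsub b.2).2)
      (funext fun b => by
        have h4 := congrFun hl (s (H ⟨x, (hsub hx).1⟩).2 b)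
        simp only [Function.comp_apply] at h4 ⊢
        rw [h4, hqs, hep, e.right_inv (hsub b.2).2]) ⟨q x, hx⟩
      (by
        have h4 : p (φ x) = ψ (q x) := congrFun hl x
        simp only [h1]
        rw [← h4, hep, e.left_inv hx'])
    refine (congrFun h3 ⟨a, haU'⟩).trans ?_
    simp only [← hwa]
    rw [hep, e.left_inv he]
  have ev : ∀ᶠ x in (𝒰 : Filter X), q x ∈ U' ∧ φ x ∈ e.source :=
    (t2.eventually (hU'o.mem_nhds haU')).and (t1.eventually (e.open_source.mem_nhds he))
  obtain ⟨x₀, hx₀⟩ := ev.exists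
  obtain ⟨i₀, -, hi₀⟩ := key x₀ hx₀.1 hx₀.2
  refine ⟨s i₀ ⟨a, haU'⟩, hi₀, fun V hV => ?_⟩
  have h1 : Subtype.val '' (s i₀ ⁻¹' V) ∈ 𝓝 a :=
    hU'o.isOpenEmbedding_subtypeVal.image_mem_nhds.2
      ((hs i₀).continuousAt.preimage_mem_nhds (x := ⟨a, haU'⟩) hV)
  filter_upwards [ev, t2.eventually h1] with x hx hx'
  obtain ⟨i, h2, h3⟩ := key x hx.1 hx.2
  have h4 : i = i₀ := by
    have h5 := hi (h3.trans hi₀.symm)
    exact (Prod.ext_iff.1 (H.symm.injective (Subtype.ext h5))).2
  obtain ⟨b, hb, hb'⟩ := hx'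
  rw [← h2, h4, ← show b = ⟨q x, hx.1⟩ from Subtype.ext hb']
  exact hb

theorem exists_ball {W : Type} [MetricSpace W] {f : W → A} [CompactSpace A] (ho : IsOpenMap f)
    (hs : Function.Surjective f) (w : W) : ∃ D : ℕ, univ ⊆ f '' ball w D := by
  refine isCompact_univ.elim_directed_cover (fun m : ℕ => f '' ball w m)
    (fun m => ho _ isOpen_ball) (fun b _ => ?_)
    (Monotone.directed_le fun m m' h => image_mono (ball_subset_ball (by exact_mod_cast h)))
  obtain ⟨x, rfl⟩ := hs b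
  obtain ⟨m, hm⟩ := exists_nat_gt (dist x w)
  exact mem_iUnion.2 ⟨m, x, hm, rfl⟩

theorem exists_deck₂ (hq : IsCoveringMap q) [SimplyConnectedSpace X] [LocallyPathConnectedSpace X]
    {x y : X} (h : q x = q y) : ∃ γ δ : X → X, Continuous γ ∧ q ∘ γ = q ∧ Continuous δ ∧
      q ∘ δ = q ∧ γ x = y ∧ ∀ z, δ (γ z) = z := by
  obtain ⟨γ, c1, c2, c3⟩ := exists_deck hq h
  obtain ⟨δ, d1, d2, d3⟩ := exists_deck hq h.symm
  exact ⟨γ, δ, c1, c2, d1, d2, c3, congrFun (hq.eq_of_comp_eq (d1.comp c1) continuous_id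
    (funext fun y => (congrFun d2 (γ y)).trans (congrFun c2 y)) x ((congrArg δ c3).trans d3))⟩

end cover

theorem uc_of_deck {X A : Type} [MetricSpace X] [ProperSpace X] [ContractibleSpace X]
    [LocallyPathConnectedSpace X] [TopologicalSpace A] [CompactSpace A] [PreconnectedSpace A]
    {q : X → A} (hq : IsCoveringMap q)
    (h : ∀ γ : X → X, Continuous γ → q ∘ γ = q → ∀ a b, dist (γ a) (γ b) ≤ dist a b) :
    UniformlyContractible X := by
  obtain ⟨x₀⟩ : Nonempty X := inferInstance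
  obtain ⟨D, hD⟩ := exists_ball hq.isOpenMap (surj_of_covering hq) x₀
  refine uniformlyContractible_of_cocompact (p := x₀) (D := D) fun x => ?_
  obtain ⟨z, hz, hz'⟩ := hD (mem_univ (q x))
  obtain ⟨γ, δ, c1, c2, d1, d2, h1, h2⟩ := exists_deck₂ hq hz'.symm
  exact ⟨γ, δ, .mk_one (h γ c1 c2), .mk_one (h δ d1 d2), h2, h1 ▸ le_of_lt hz⟩


/-- No closed aspherical `k`-manifold maps injectively on fundamental groups to a space whose
universal covering has finite width in dimension `k - 1`. -/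
theorem no_incompressible {N W : Type} [TopologicalSpace N] [T2Space N] [MetricSpace W]
    [ProperSpace W] [SimplyConnectedSpace W] [LocallyPathConnectedSpace W] {p : W → N}
    (hp : IsCoveringMap p) (hps : Function.Surjective p)
    (hdeck : ∀ γ : W → W, Continuous γ → p ∘ γ = p → ∀ a b, dist (γ a) (γ b) ≤ dist a b)
    {F : Type} [NormedAddCommGroup F] [NormedSpace ℝ F] [FiniteDimensional ℝ F]
    {A : Type} [TopologicalSpace A] [CompactSpace A] [T2Space A] [ConnectedSpace A]
    [ChartedSpace F A] [IsManifold 𝓘(ℝ, F) ∞ A] (hF : 1 ≤ Module.finrank ℝ F)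
    {X : Type} [TopologicalSpace X] [ContractibleSpace X] {q : X → A} (hq : IsCoveringMap q)
    (ψ : C(A, N)) (a : A) {V : Type} {K : PreAbstractSimplicialComplex V}
    (hK : ∀ s ∈ K.faces, s.card ≤ Module.finrank ℝ F) {f : W → Realization K}
    (hf : Continuous f) {C : ℝ} (hC : ∀ x y, f x = f y → dist x y ≤ C) :
    ¬ Function.Injective (FundamentalGroup.map ψ a) := by
  intro hψ
  have hloc := hq.isLocalHomeomorph
  have : LocallyPathConnectedSpace X := ChartedSpace.locallyPathConnectedSpace F (Cov hloc)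
  have : LocallyConnectedSpace A := ChartedSpace.locallyConnectedSpace F A
  have hqs := surj_of_covering hq
  obtain ⟨x₀, rfl⟩ := hqs a
  obtain ⟨w₀, hw₀⟩ := hps (ψ (q x₀))
  obtain ⟨φ, ⟨-, hl⟩, -⟩ := hp.existsUnique_continuousMap_lifts (ψ.comp ⟨q, hq.continuous⟩) x₀ w₀ hw₀
  replace hl : p ∘ φ = ψ ∘ q := hl
  have hi : Function.Injective fun x => (φ x, q x) := by
    intro x y h
    obtain ⟨h1, h2⟩ := Prod.ext_iff.1 h
    obtain ⟨γ, c1, c2, c3⟩ := exists_deck hq h2
    obtain ⟨δ, d1, d2, d3⟩ := deck_comm hp φ.continuous hl c1 c2 x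
    have h3 : δ = id := hp.eq_of_comp_eq d1 continuous_id d2 (φ x)
      ((congrFun d3 x).symm.trans ((congrArg φ c3).trans h1.symm))
    have h4 : x₀ = γ x₀ := fibre_inj hq hp φ.continuous hl hψ (congrFun c2 x₀).symm
      (by rw [h3] at d3; exact (congrFun d3 x₀).symm)
    have h5 : γ = id := hq.eq_of_comp_eq c1 continuous_id c2 x₀ h4.symm
    rw [← c3, h5, id]
  have he := closedEmb hq hp φ.continuous hl hi
  have := Manifold.metrizableSpace 𝓘(ℝ, F) A
  let _ : MetricSpace A := TopologicalSpace.metrizableSpaceMetric A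
  let _ : MetricSpace X := he.isEmbedding.comapMetricSpace _
  have hd : ∀ x y : X, dist x y = max (dist (φ x) (φ y)) (dist (q x) (q y)) := fun x y => rfl
  have : ProperSpace X := ⟨fun x r => he.isCompact_preimage (isCompact_closedBall (φ x, q x) r)⟩
  have hU : UniformlyContractible X := by
    refine uc_of_deck hq fun γ c1 c2 x y => ?_
    obtain ⟨δ, d1, d2, d3⟩ := deck_comm hp φ.continuous hl c1 c2 x₀
    rw [hd, hd, show q (γ x) = q x from congrFun c2 x, show q (γ y) = q y from congrFun c2 y,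
      show φ (γ x) = δ (φ x) from congrFun d3 x, show φ (γ y) = δ (φ y) from congrFun d3 y]
    exact max_le_max (hdeck δ d1 d2 _ _) le_rfl
  let _ : ChartedSpace F X := instChartedCov hloc
  have : IsManifold 𝓘(ℝ, F) ∞ X := instManifoldCov hloc
  refine not_contr (E := F) rfl hF x₀ hK (hf.comp φ.continuous) (C := max C (diam (univ : Set A)))
    (fun x y h => ?_) hU
  rw [hd]
  exact max_le_max (hC _ _ h) (dist_le_diam_of_mem isCompact_univ.isBounded trivial trivial)

end Vale.Agent.N210
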