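import Vale.Agent.P251.G.BrDeg

/-!
# N210 / Par : the parity of the number of regular zeros
-/

open Set Topology Metric Filter MeasureTheory
open scoped ContDiff Manifold

namespace Vale.Agent.N210

open Vale.Agent.P251.G Vale.Agent.P205.TI.Deg

variable {n : ℕ}

theorem exists_ext {f : (Fin n → ℝ) → Fin n → ℝ} {a : Fin n → ℝ} {r : ℝ} (hr : 0 < r)
    (hf : ContDiffOn ℝ ∞ f (ball a (2 * r))) :
    ∃ g : (Fin n → ℝ) → Fin n → ℝ, ContDiff ℝ ∞ g ∧ ∀ w ∈ closedBall a r, g =ᶠ[𝓝 w] f := by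
  let b : ContDiffBump a := ⟨4 / 3 * r, 5 / 3 * r, by positivity, by linarith⟩
  refine ⟨fun w => b w • f w, contDiff_iff_contDiffAt.2 fun w => ?_, fun w hw => ?_⟩
  · by_cases hw : w ∈ ball a (2 * r)
    · exact b.contDiff.contDiffAt.smul (hf.contDiffAt (isOpen_ball.mem_nhds hw))
    · have h1 : w ∉ tsupport b := by
        rw [b.tsupport_eq]
        exact fun h => hw (closedBall_subset_ball (by simp only [b]; linarith) h)
      refine (contDiffAt_const (c := (0 : Fin n → ℝ))).congr_of_eventuallyEq ?_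
      filter_upwards [notMem_tsupport_iff_eventuallyEq.1 h1] with z hz
      rw [hz, Pi.zero_apply, zero_smul]
  · have h1 : w ∈ ball a (4 / 3 * r) := closedBall_subset_ball (by linarith) hw
    filter_upwards [isOpen_ball.mem_nhds h1] with z hz
    rw [b.one_of_mem_closedBall (ball_subset_closedBall hz), one_smul]

theorem even_sum_sg {ι : Type} (Z : Finset ι) {d : ι → ℝ} (hd : ∀ z ∈ Z, d z ≠ 0) :
    Even (∑ z ∈ Z, sg (d z)) ↔ Even Z.card := by
  classical
  induction Z using Finset.induction_on with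
  | empty => simp
  | insert z Z hz ih =>
    rw [Finset.sum_insert hz, Finset.card_insert_of_notMem hz, Nat.even_add_one, Int.even_add,
      ih fun w hw => hd w (Finset.mem_insert_of_mem hw)]
    have h1 : ¬ Even (sg (d z)) := by
      rcases (hd z (Finset.mem_insert_self _ _)).lt_or_gt with h | h
      · rw [sg_neg h]; decide
      · rw [sg_pos h]; decide
    tauto

/-- regular zeros in a ball -/
theorem deg_ball {f : (Fin n → ℝ) → Fin n → ℝ} {a : Fin n → ℝ} {r : ℝ} (hr : 0 < r)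
    (hf : ContDiffOn ℝ ∞ f (ball a (2 * r))) (hs : ∀ w ∈ sphere a r, f w ≠ 0)
    (hreg : ∀ w ∈ ball a r, f w = 0 → (fderiv ℝ f w).det ≠ 0) :
    {w | w ∈ ball a r ∧ f w = 0}.Finite ∧ ∃ k : ℤ, degR f (ball a r) = k ∧
      (Even k ↔ Even {w | w ∈ ball a r ∧ f w = 0}.ncard) := by
  obtain ⟨g, hg, hgf⟩ := exists_ext hr hf
  have hfr : frontier (ball a r) = sphere a r := frontier_ball a hr.ne'
  have hcl : closure (ball a r) = closedBall a r := closure_ball a hr.ne'
  have he : ∀ w ∈ closedBall a r, g w = f w := fun w hw => (hgf w hw).self_of_nhds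
  have hreg' : ∀ w ∈ ball a r, g w = 0 → (fderiv ℝ g w).det ≠ 0 := fun w hw h0 => by
    rw [(hgf w (ball_subset_closedBall hw)).fderiv_eq]
    exact hreg w hw (he w (ball_subset_closedBall hw) ▸ h0)
  obtain ⟨Z, hZ, hdeg⟩ := degR_regular hg isOpen_ball isBounded_ball
    (fun w hw => by
      rw [hfr] at hw
      rw [he w (sphere_subset_closedBall hw)]
      exact hs w hw) hreg'
  have hZ' : {w | w ∈ ball a r ∧ f w = 0} = Z := by
    ext w
    rw [mem_ofPred_eq, Finset.mem_coe, hZ]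
    exact and_congr_right fun hw => by rw [he w (ball_subset_closedBall hw)]
  rw [hZ']
  refine ⟨Z.finite_toSet, ∑ z ∈ Z, sg (fderiv ℝ g z).det, ?_, ?_⟩
  · push_cast
    rw [← hdeg]
    refine degR_homotopy isOpen_ball isBounded_ball
      (hcl ▸ hf.continuousOn.mono (closedBall_subset_ball (by linarith)))
      hg.continuous.continuousOn fun w hw t _ => ?_
    rw [hfr] at hw
    rw [he w (sphere_subset_closedBall hw), ← add_smul, sub_add_cancel, one_smul]
    exact hs w hw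
  · rw [ncard_coe_finset]
    exact even_sum_sg Z fun z hz => hreg' z ((hZ z).1 hz).1 ((hZ z).1 hz).2

theorem parity {f₀ f₁ : (Fin n → ℝ) → Fin n → ℝ} {a : Fin n → ℝ} {r : ℝ} (hr : 0 < r)
    (h₀ : ContDiffOn ℝ ∞ f₀ (ball a (2 * r))) (h₁ : ContDiffOn ℝ ∞ f₁ (ball a (2 * r)))
    (hs : ∀ w ∈ sphere a r, ∀ t ∈ Icc (0 : ℝ) 1, (1 - t) • f₀ w + t • f₁ w ≠ 0)
    (r₀ : ∀ w ∈ ball a r, f₀ w = 0 → (fderiv ℝ f₀ w).det ≠ 0)
    (r₁ : ∀ w ∈ ball a r, f₁ w = 0 → (fderiv ℝ f₁ w).det ≠ 0) :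
    Even {w | w ∈ ball a r ∧ f₀ w = 0}.ncard ↔ Even {w | w ∈ ball a r ∧ f₁ w = 0}.ncard := by
  obtain ⟨-, k₀, e₀, p₀⟩ := deg_ball hr h₀
    (fun w hw => by simpa using hs w hw 0 (left_mem_Icc.2 zero_le_one)) r₀
  obtain ⟨-, k₁, e₁, p₁⟩ := deg_ball hr h₁
    (fun w hw => by simpa using hs w hw 1 (right_mem_Icc.2 zero_le_one)) r₁
  have hcl : closure (ball a r) = closedBall a r := closure_ball a hr.ne'
  have h := degR_homotopy (W := ball a r) isOpen_ball isBounded_ball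
    (hcl ▸ h₀.continuousOn.mono (closedBall_subset_ball (by linarith)))
    (hcl ▸ h₁.continuousOn.mono (closedBall_subset_ball (by linarith)))
    (fun w hw => hs w (frontier_ball a hr.ne' ▸ hw))
  rw [e₀, e₁] at h
  rw [← p₀, ← p₁, Int.cast_injective h]

/-- `y` is a regular value in the ball and is not taken on the sphere -/
def Reg (f : (Fin n → ℝ) → Fin n → ℝ) (a : Fin n → ℝ) (r : ℝ) (y : Fin n → ℝ) : Prop :=
  (∀ w ∈ ball a r, f w = y → (fderiv ℝ f w).det ≠ 0) ∧ ∀ w ∈ sphere a r, f w ≠ y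

theorem null_not_reg {f : (Fin n → ℝ) → Fin n → ℝ} {a : Fin n → ℝ} {r : ℝ} (hr : 0 < r)
    (hf : ContDiffOn ℝ ∞ f (ball a (2 * r))) : volume {y | ¬ Reg f a r y} = 0 := by
  have hd : ∀ w ∈ closedBall a r, DifferentiableAt ℝ f w := fun w hw =>
    (hf.contDiffAt (isOpen_ball.mem_nhds
      (closedBall_subset_ball (by linarith) hw))).differentiableAt (by simp)
  have h1 : volume (f '' {w | w ∈ ball a r ∧ (fderiv ℝ f w).det = 0}) = 0 :=
    addHaar_image_eq_zero_of_det_fderivWithin_eq_zero volume (f' := fderiv ℝ f)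
      (fun w hw => (hd w (ball_subset_closedBall hw.1)).hasFDerivAt.hasFDerivWithinAt)
      fun w hw => hw.2
  have h2 : volume (f '' sphere a r) = 0 :=
    addHaar_image_eq_zero_of_differentiableOn_of_addHaar_eq_zero volume
      (fun w hw => (hd w (sphere_subset_closedBall hw)).differentiableWithinAt)
      (Measure.addHaar_sphere_of_ne_zero volume a hr.ne')
  refine measure_mono_null (fun y hy => ?_) (measure_union_null h1 h2)
  by_contra hc
  refine hy ⟨fun w hw h h0 => hc (Or.inl ⟨w, ⟨hw, h0⟩, h⟩), fun w hw h => hc (Or.inr ⟨w, hw, h⟩)⟩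

section chart

variable {X : Type} [TopologicalSpace X] {c : OpenPartialHomeomorph X (Fin n → ℝ)}
  {a : Fin n → ℝ} {r : ℝ}

/-- the ball in the chart -/
def cb (c : OpenPartialHomeomorph X (Fin n → ℝ)) (a : Fin n → ℝ) (r : ℝ) : Set X :=
  c.source ∩ c ⁻¹' ball a r

theorem cb_open : IsOpen (cb c a r) := c.isOpen_inter_preimage isOpen_ball

theorem cb_image (h : ball a r ⊆ c.target) (G : X → Fin n → ℝ) (y : Fin n → ℝ) :
    {x | x ∈ cb c a r ∧ G x = y} =
      c.symm '' {w | w ∈ ball a r ∧ G (c.symm w) - y = 0} := by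
  ext x
  constructor
  · rintro ⟨⟨h1, h2⟩, h3⟩
    exact ⟨c x, ⟨h2, by rw [c.left_inv h1, h3, sub_self]⟩, c.left_inv h1⟩
  · rintro ⟨w, ⟨h1, h2⟩, rfl⟩
    refine ⟨⟨c.map_target (h h1), ?_⟩, sub_eq_zero.1 h2⟩
    rw [mem_preimage, c.right_inv (h h1)]
    exact h1

theorem cb_ncard (h : ball a r ⊆ c.target) (G : X → Fin n → ℝ) (y : Fin n → ℝ) :
    {x | x ∈ cb c a r ∧ G x = y}.ncard = {w | w ∈ ball a r ∧ G (c.symm w) - y = 0}.ncard := by
  rw [cb_image h]
  exact (c.symm.injOn.mono fun w hw => h hw.1).ncard_image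

theorem reg_sub {f : (Fin n → ℝ) → Fin n → ℝ} {y : Fin n → ℝ} (h : Reg f a r y) :
    ∀ w ∈ ball a r, f w - y = 0 → (fderiv ℝ (fun w => f w - y) w).det ≠ 0 := fun w hw h0 => by
  rw [fderiv_sub_const]
  exact h.1 w hw (sub_eq_zero.1 h0)

theorem cb_finite (hr : 0 < r) (h : ball a (2 * r) ⊆ c.target) {G : X → Fin n → ℝ}
    (hG : ContDiffOn ℝ ∞ (fun w => G (c.symm w)) (ball a (2 * r))) {y : Fin n → ℝ}
    (hy : Reg (fun w => G (c.symm w)) a r y) : {x | x ∈ cb c a r ∧ G x = y}.Finite := by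
  rw [cb_image ((ball_subset_ball (by linarith)).trans h)]
  exact (deg_ball hr (hG.sub contDiffOn_const) (fun w hw h0 => hy.2 w hw (sub_eq_zero.1 h0))
    (reg_sub hy)).1.image _

theorem cb_parity (hr : 0 < r) (h : ball a (2 * r) ⊆ c.target) {G G' : X → Fin n → ℝ}
    (hG : ContDiffOn ℝ ∞ (fun w => G (c.symm w)) (ball a (2 * r)))
    (hG' : ContDiffOn ℝ ∞ (fun w => G' (c.symm w)) (ball a (2 * r))) {y : Fin n → ℝ}
    (hy : Reg (fun w => G (c.symm w)) a r y) (hy' : Reg (fun w => G' (c.symm w)) a r y)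
    (he : ∀ x ∉ cb c a r, G' x = G x) :
    Even {x | x ∈ cb c a r ∧ G x = y}.ncard ↔ Even {x | x ∈ cb c a r ∧ G' x = y}.ncard := by
  have hb : ball a r ⊆ c.target := (ball_subset_ball (by linarith)).trans h
  rw [cb_ncard hb, cb_ncard hb]
  refine parity hr (hG.sub contDiffOn_const) (hG'.sub contDiffOn_const) (fun w hw t _ => ?_)
    (reg_sub hy) (reg_sub hy')
  have h1 : c.symm w ∉ cb c a r := by
    rintro ⟨-, h2⟩
    rw [mem_preimage, c.right_inv (h (closedBall_subset_ball (by linarith)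
      (sphere_subset_closedBall hw)))] at h2
    exact (ne_of_lt h2) hw
  rw [he _ h1, ← add_smul, sub_add_cancel, one_smul]
  exact fun h0 => hy.2 w hw (sub_eq_zero.1 h0)

end chart

theorem even_of_local {X : Type} {Z Z' W : Set X} (hZ : Z.Finite) (hZ' : Z'.Finite)
    (h1 : Z \ W = Z' \ W) (h2 : Even (Z ∩ W).ncard ↔ Even (Z' ∩ W).ncard) :
    Even Z.ncard ↔ Even Z'.ncard := by
  rw [← ncard_inter_add_ncard_sdiff_eq_ncard Z W hZ, ← ncard_inter_add_ncard_sdiff_eq_ncard Z' W hZ',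
    Nat.even_add, Nat.even_add, h1, h2]

end Vale.Agent.N210
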