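import Vale.Agent.N210.Fin
import Vale.Agent.N210.Deg
import Vale.Agent.N210.Hom
import Vale.Agent.N210.Defs

/-!
# N210 / Top : a uniformly contractible manifold has infinite width in codimension one
-/

open Set Topology Metric Filter
open scoped ContDiff Manifold

namespace Vale.Agent.N210

open Vale.Agent.P210

theorem UniformlyContractible.contr {X : Type} [MetricSpace X] (h : UniformlyContractible X)
    (r : ℝ) : ∃ R, Contr X r R := by
  classical
  obtain ⟨R, hR, h⟩ := h (r + 1)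
  refine ⟨R, fun x => ?_⟩
  obtain ⟨c, ⟨H⟩⟩ := h x
  have hb : closedBall x r ⊆ ball x (r + 1) := closedBall_subset_ball (lt_add_one r)
  refine ⟨fun z => if hz : z.1 ∈ ball x (r + 1) then
    (H (projIcc 0 1 zero_le_one z.2, ⟨z.1, hz⟩) : X) else x, c, ?_, le_of_lt c.2,
    fun y hy => ⟨?_, ?_, fun t => ?_⟩⟩
  · rw [continuousOn_iff_continuous_domRestrict]
    have h1 : Continuous fun z : (closedBall x r ×ˢ (univ : Set ℝ) : Set (X × ℝ)) =>
        (H (projIcc 0 1 zero_le_one z.1.2, ⟨z.1.1, hb z.2.1⟩) : X) :=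
      continuous_subtype_val.comp (H.continuous.comp
        ((continuous_projIcc.comp (continuous_snd.comp continuous_subtype_val)).prodMk
          ((continuous_fst.comp continuous_subtype_val).subtype_mk _)))
    exact h1.congr fun z => by simp only [domRestrict_apply, dif_pos (hb z.2.1)]
  · simp only [dif_pos (hb hy), projIcc_left]
    exact congrArg Subtype.val (H.apply_zero ⟨y, hb hy⟩)
  · simp only [dif_pos (hb hy), projIcc_right]
    exact congrArg Subtype.val (H.apply_one ⟨y, hb hy⟩)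
  · simp only [dif_pos (hb hy)]
    exact le_of_lt (H _).2

/-- A contractible proper space with a cocompact family of isometries is uniformly
contractible. -/
theorem uniformlyContractible_of_cocompact {X : Type} [MetricSpace X] [ProperSpace X]
    [ContractibleSpace X] {p : X} {D : ℝ}
    (h : ∀ x : X, ∃ γ δ : X → X, LipschitzWith 1 γ ∧ LipschitzWith 1 δ ∧ (∀ y, δ (γ y) = y) ∧
      dist (γ x) p ≤ D) : UniformlyContractible X := by
  intro r
  obtain ⟨c, ⟨H⟩⟩ := id_nullhomotopic X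
  have hK : IsCompact (H '' (univ ×ˢ closedBall p (r + D))) :=
    (isCompact_univ.prod (isCompact_closedBall _ _)).image H.continuous
  obtain ⟨R, hR⟩ := (hK.isBounded.union (Bornology.isBounded_singleton (x := c))).subset_ball p
  refine ⟨max r (R + D), le_max_left _ _, fun x => ?_⟩
  obtain ⟨γ, δ, hγ, hδ, hδγ, hD⟩ := h x
  have h1 : ∀ z ∈ ball p R, δ z ∈ ball x (max r (R + D)) := fun z hz => by
    have h2 := hδ.dist_le_mul z (γ x)
    rw [hδγ, NNReal.coe_one, one_mul] at h2
    refine mem_ball.2 (lt_max_of_lt_right ?_)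
    linarith [dist_triangle_right z (γ x) p, mem_ball.1 hz]
  have h2 : ∀ (t : unitInterval) (y : ball x r), H (t, γ y) ∈ ball p R := fun t y => by
    refine hR (Or.inl ⟨(t, γ y), ⟨mem_univ _, ?_⟩, rfl⟩)
    have h3 := dist_triangle (γ y) (γ x) p
    have h4 := hγ.dist_le_mul y x
    rw [NNReal.coe_one, one_mul] at h4
    exact mem_closedBall.2 (by linarith [mem_ball.1 y.2])
  have c1 := hγ.continuous
  have c2 := hδ.continuous
  refine ⟨⟨δ c, h1 c (hR (Or.inr rfl))⟩, ⟨⟨⟨fun z => ⟨δ (H (z.1, γ z.2)),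
    h1 _ (h2 _ _)⟩, Continuous.subtype_mk (by fun_prop) _⟩, fun y => Subtype.ext ?_,
    fun y => Subtype.ext ?_⟩⟩⟩
  · change δ (H (0, γ y)) = y
    rw [H.apply_zero, ContinuousMap.id_apply, hδγ]
  · change δ (H (1, γ y)) = δ c
    rw [H.apply_one, ContinuousMap.const_apply]

theorem exists_chart {n : ℕ} {E : Type} [NormedAddCommGroup E] [NormedSpace ℝ E]
    [FiniteDimensional ℝ E] {X : Type} [TopologicalSpace X] [ChartedSpace E X]
    [IsManifold 𝓘(ℝ, E) ∞ X] (hn : Module.finrank ℝ E = n) (x : X) :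
    ∃ c : OpenPartialHomeomorph X (Fin n → ℝ), x ∈ c.source ∧ Sm E c := by
  let L : E ≃L[ℝ] (Fin n → ℝ) := ContinuousLinearEquiv.ofFinrankEq (by simp [hn])
  refine ⟨(chartAt E x).transHomeomorph L.toHomeomorph, mem_chart_source E x, ?_⟩
  exact (contMDiffOn_chart_symm (I := 𝓘(ℝ, E)) (x := x)).comp
    L.symm.contDiff.contMDiff.contMDiffOn fun w hw => hw

theorem exists_collapse {n : ℕ} {X : Type} [MetricSpace X]
    {c : OpenPartialHomeomorph X (Fin n → ℝ)} {p : X} (hp : p ∈ c.source) :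
    ∃ (r : ℝ) (α : X → ℝ) (β : X → Fin n → ℝ), 0 < r ∧ Continuous α ∧ Continuous β ∧
      (∀ y, 0 ≤ α y) ∧ α p = 0 ∧ (∀ᶠ y in 𝓝 p, β y = c y - c p) ∧
      ∀ y, α y ≤ 2 → y ∈ c.source ∧ β y = c y - c p ∧ dist y p < 1 ∧ r * α y = ‖β y‖ := by
  classical
  obtain ⟨r, hr, hb, hU⟩ := exists_cb hp (ball_mem_nhds p one_pos)
  have hb' : closedBall (c p) r ⊆ ball (c p) (2 * r) := closedBall_subset_ball (by linarith)
  have hB : IsClosed (c.symm '' closedBall (c p) r) :=
    ((isCompact_closedBall _ _).image_of_continuousOn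
      (c.continuousOn_symm.mono (hb'.trans hb))).isClosed
  have hBs : c.symm '' closedBall (c p) r ⊆ c.source := by
    rintro _ ⟨w, hw, rfl⟩
    exact c.map_target (hb (hb' hw))
  obtain ⟨β, hβ⟩ := ContinuousMap.exists_restrict_eq hB ⟨fun y => c y - c p,
    ((c.continuousOn.mono hBs).sub continuousOn_const).domRestrict⟩
  have hβ' : ∀ y ∈ c.symm '' closedBall (c p) r, β y = c y - c p := fun y hy =>
    DFunLike.congr_fun hβ ⟨y, hy⟩
  have hcb : cb c (c p) r ⊆ c.symm '' closedBall (c p) r := fun y hy =>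
    ⟨c y, ball_subset_closedBall hy.2, c.left_inv hy.1⟩
  have hpc : p ∈ cb c (c p) r := ⟨hp, mem_ball_self hr⟩
  refine ⟨r / 3, fun y => if y ∈ cb c (c p) r then 3 * ‖β y‖ / r else 3, β, by positivity, ?_,
    β.continuous, fun y => ?_, ?_, ?_, fun y hy => ?_⟩
  · rw [← continuousOn_univ]
    refine ContinuousOn.mono (ContinuousOn.union_of_isClosed ?_ ?_ hB
      (cb_open (c := c) (a := c p) (r := r)).isClosed_compl) fun y _ => ?_
    · refine ContinuousOn.congr (f := fun y => 3 * ‖β y‖ / r) (by fun_prop) fun y hy => ?_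
      by_cases h : y ∈ cb c (c p) r
      · exact if_pos h
      · obtain ⟨w, hw, rfl⟩ := hy
        have h1 : ‖β (c.symm w)‖ = r := by
          rw [hβ' _ ⟨w, hw, rfl⟩, c.right_inv (hb (hb' hw)), ← dist_eq_norm]
          refine le_antisymm hw (not_lt.1 fun h2 => h ⟨c.map_target (hb (hb' hw)), ?_⟩)
          rw [mem_preimage, c.right_inv (hb (hb' hw))]
          exact h2
        simp only [if_neg h, h1]
        field_simp
    · exact continuousOn_const.congr fun y hy => if_neg hy
    · by_cases h : y ∈ cb c (c p) r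
      · exact Or.inl (hcb h)
      · exact Or.inr h
  · dsimp only
    split_ifs <;> positivity
  · simp only [if_pos hpc, hβ' p (hcb hpc), sub_self, norm_zero, mul_zero, zero_div]
  · filter_upwards [cb_open.mem_nhds hpc] with y hy
    exact hβ' y (hcb hy)
  · have h : y ∈ cb c (c p) r := by
      by_contra h
      simp only [if_neg h] at hy
      norm_num at hy
    refine ⟨h.1, hβ' y (hcb h), ?_, ?_⟩
    · have h1 := hU _ (hb' (ball_subset_closedBall h.2))
      rwa [c.left_inv h.1] at h1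
    · simp only [if_pos h]
      field_simp

/-- A proper map of degree one from an `n`-manifold to a uniformly contractible space is not
bounded on the fibres of a map to a complex of dimension less than `n`. -/
theorem not_dom {n : ℕ} {E : Type} [NormedAddCommGroup E] [NormedSpace ℝ E]
    [FiniteDimensional ℝ E] {W : Type} [MetricSpace W] [ProperSpace W] [ChartedSpace E W]
    [IsManifold 𝓘(ℝ, E) ∞ W] (hn : Module.finrank ℝ E = n) (hn1 : 1 ≤ n) {X : Type}
    [MetricSpace X] {φ : W → X} (hφ : Continuous φ) {p : W}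
    (hpr : ∀ r, IsCompact (φ ⁻¹' closedBall (φ p) r)) {e : OpenPartialHomeomorph W X}
    (hpe : p ∈ e.source) (hφe : EqOn φ e e.source) (hφp : ∀ w, φ w = φ p → w = p) {V : Type}
    {K : PreAbstractSimplicialComplex V} (hK : ∀ s ∈ K.faces, s.card ≤ n)
    {f : W → Realization K} (hf : Continuous f) {C : ℝ}
    (hC : ∀ x y, f x = f y → dist (φ x) (φ y) ≤ C) : ¬ UniformlyContractible X := by
  intro hX
  obtain ⟨c₁, hp₁, hc₁⟩ := exists_chart hn p
  set c₀ := e.symm.trans c₁ with hc₀
  have hc01 : ∀ x ∈ e.source, c₀ (φ x) = c₁ x := fun x hx => by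
    change c₁ (e.symm (φ x)) = c₁ x
    rw [hφe hx, e.left_inv hx]
  have hp : φ p ∈ c₀.source := ⟨by rw [hφe hpe]; exact e.map_source hpe, by
    change e.symm (φ p) ∈ c₁.source
    rwa [hφe hpe, e.left_inv hpe]⟩
  obtain ⟨r, α₀, β, hr, hα₀, hβ, hα0, hαp, hβp, hα2⟩ := exists_collapse hp
  obtain ⟨R, hR⟩ := exists_hom hX.contr (m := n + 1) (by omega) (C + 1)
  set Y := φ ⁻¹' closedBall (φ p) (max R 0 + 2) with hY
  have : CompactSpace Y := isCompact_iff_compactSpace.1 (hpr _)
  have hR2 : 0 < max R 0 + 2 := by positivity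
  have hpY : p ∈ Y := mem_closedBall_self hR2.le
  obtain ⟨S, _, g, hg, hl, hgf⟩ := exists_fin hK (hf.comp (continuous_subtype_val (p := (· ∈ Y))))
  have : Nonempty S := by
    obtain ⟨s, -, -, h⟩ := hl ⟨p, hpY⟩
    by_contra hS
    rw [not_nonempty_iff] at hS
    simp [Finset.eq_empty_of_isEmpty s] at h
  obtain ⟨ε, hε, hεg⟩ := (isClosed_le (f := fun _ : Y × Y => C + 1)
    (g := fun z : Y × Y => dist (φ z.1.1) (φ z.2.1)) continuous_const
    (by fun_prop)).isCompact.exists_forall_le' (f := fun z => dist (g z.1) (g z.2))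
    (by fun_prop) (a := 0) (fun z hz => dist_pos.2 fun h => by
      have h1 := hC _ _ (hgf _ _ h)
      have h2 : C + 1 ≤ dist (φ z.1.1) (φ z.2.1) := hz
      linarith)
  set a : ℝ := 4 * ((n + 1 : ℕ) : ℝ) / ε with ha
  have ha0 : 0 < a := by positivity
  obtain ⟨F, hF, hFd, hF0, hF1⟩ := hR Y (fun y => φ y) S (fun y => a • g y)
    (hφ.comp continuous_subtype_val) (hg.const_smul a) (fun y => by
      obtain ⟨s, h1, h2, -⟩ := hl y
      exact ⟨s, by omega, fun v hv => by rw [Pi.smul_apply, h2 v hv, smul_zero]⟩)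
    (fun y y' h => by
      by_contra hc
      have h1 := hεg (y, y') (not_le.1 hc).le
      rw [dist_smul₀, Real.norm_eq_abs, abs_of_pos ha0] at h
      have h2 : a * ε = 4 * ((n + 1 : ℕ) : ℝ) := by rw [ha]; field_simp
      have h3 : (0 : ℝ) < ((n + 1 : ℕ) : ℝ) := by positivity
      nlinarith)
  obtain ⟨u', hu', hud, hu0⟩ := miss hn1 hg hl (u := fun y => β (F (y, 1))) (by fun_prop)
    (fun y y' h => by rw [hF1 y y' (by rw [h])]) hr
  have he : IsClosedEmbedding (Prod.map (Subtype.val : Y → W) (id : ℝ → ℝ)) :=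
    (isClosed_closedBall.preimage hφ).isClosedEmbedding_subtypeVal.prodMap IsClosedEmbedding.id
  obtain ⟨A, hA⟩ := ContinuousMap.exists_extension he ⟨fun z => α₀ (F z), hα₀.comp hF⟩
  obtain ⟨u, hu⟩ := ContinuousMap.exists_extension he
    ⟨fun z => β (F z) + z.2 • (u' z.1 - β (F (z.1, 1))), by fun_prop⟩
  have hA' : ∀ (y : Y) t, A (y, t) = α₀ (F (y, t)) := fun y t => DFunLike.congr_fun hA (y, t)
  have hu'' : ∀ (y : Y) t, u (y, t) = β (F (y, t)) + t • (u' y - β (F (y, 1))) := fun y t =>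
    DFunLike.congr_fun hu (y, t)
  let α : W × ℝ → ℝ := fun z => max (A z) (3 * (dist (φ z.1) (φ p) - (max R 0 + 1)))
  have key : ∀ x t, α (x, t) ≤ 2 → ∃ hx : x ∈ Y, α (x, t) = α₀ (F (⟨x, hx⟩, t)) := by
    intro x t h
    obtain ⟨h1, h2⟩ := max_le_iff.1 h
    have hx : x ∈ Y := mem_closedBall.2 (by simp only at h2; linarith)
    have h3 := hA' ⟨x, hx⟩ t
    refine ⟨hx, (max_eq_left ?_).trans h3⟩
    rw [h3] at h1 ⊢
    have h4 := (hα2 _ h1).2.2.1
    have h5 := hFd (⟨x, hx⟩, t)
    have h6 := dist_triangle_left (φ x) (φ p) (F (⟨x, hx⟩, t))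
    have h7 := hα0 (F (⟨x, hx⟩, t))
    have h8 := le_max_left R 0
    simp only at h5 ⊢
    linarith
  obtain ⟨x, h1, h2⟩ := deg (E := E) (exists_chart hn) (α := α) (u := u) (by fun_prop)
    u.continuous (hpr (max R 0 + 2)) (fun x t _ h => (key x t h).1)
    (fun x t ht h1 h2 h0 => by
      obtain ⟨hx, h3⟩ := key x t h2
      rw [h3] at h1 h2
      have h4 := (hα2 _ h2).2.2.2
      have h5 := hud ⟨x, hx⟩
      rw [hu'' ⟨x, hx⟩, add_eq_zero_iff_eq_neg] at h0
      rw [h0, norm_neg, norm_smul, Real.norm_eq_abs, abs_of_nonneg ht.1, ← dist_eq_norm] at h4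
      have h6 := mul_le_of_le_one_left (dist_nonneg (x := u' ⟨x, hx⟩)
        (y := β (F (⟨x, hx⟩, 1)))) ht.2
      nlinarith) hp₁ hc₁
    (by
      filter_upwards [hφ.continuousAt.eventually hβp, hφ.continuousAt.preimage_mem_nhds
        (closedBall_mem_nhds (φ p) hR2), e.open_source.mem_nhds hpe] with x h1 h2 h3
      rw [hu'' ⟨x, h2⟩, hF0, zero_smul, add_zero, h1, hc01 x h3, hc01 p hpe])
    (by
      refine max_lt ?_ ?_
      · rw [hA' ⟨p, hpY⟩, hF0, hαp]
        exact one_pos
      · rw [dist_self]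
        linarith [le_max_right R 0])
    (fun x h1 h2 => by
      obtain ⟨hx, h3⟩ := key x 0 h1
      rw [h3, hF0] at h1
      rw [hu'' ⟨x, hx⟩, hF0, zero_smul, add_zero, (hα2 _ h1).2.1, sub_eq_zero] at h2
      exact hφp x (c₀.injOn (hα2 _ h1).1 hp h2))
  obtain ⟨hx, -⟩ := key x 1 h1
  rw [hu'' ⟨x, hx⟩, one_smul, add_sub_cancel] at h2
  exact hu0 _ h2

/-- A uniformly contractible `n`-manifold has no map with bounded fibres to a complex of
dimension less than `n`. -/
theorem not_contr {n : ℕ} {E : Type} [NormedAddCommGroup E] [NormedSpace ℝ E]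
    [FiniteDimensional ℝ E] {X : Type} [MetricSpace X] [ProperSpace X] [ChartedSpace E X]
    [IsManifold 𝓘(ℝ, E) ∞ X] (hn : Module.finrank ℝ E = n) (hn1 : 1 ≤ n) (p : X) {V : Type}
    {K : PreAbstractSimplicialComplex V} (hK : ∀ s ∈ K.faces, s.card ≤ n)
    {f : X → Realization K} (hf : Continuous f) {C : ℝ} (hC : ∀ x y, f x = f y → dist x y ≤ C) :
    ¬ UniformlyContractible X :=
  not_dom hn hn1 continuous_id (p := p) (fun _ => isCompact_closedBall _ _)
    (e := OpenPartialHomeomorph.refl X) trivial (fun _ _ => rfl) (fun _ h => h) hK hf hC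

end Vale.Agent.N210
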